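import Vale.Agent.P146.Trace.Scheme

/-!
# P146, trace method: the counting bound

A walk is determined by its pattern (first occurrences) and the values at fresh positions. A pattern
is determined by its values at `code`: roots, turns and the inner steps which are not predicted by
going on to the only other known neighbour, or to a fresh vertex if there is none. There are at most
`13 (T + g + D)` such positions, where `g` counts new pairs to old vertices and `D` excess
multiplicity, while each unit of `g + D` saves a factor `n`.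
-/

namespace Vale.Agent.P146.Trace

open Finset

variable {N n : ℕ} (W : Scheme N) (x : Fin N → Fin n)

/-- `x i` occurs for the first time -/
def Fresh (i : Fin N) : Prop := ∀ j, j < i → x j ≠ x i

instance (i : Fin N) : Decidable (Fresh x i) := inferInstanceAs (Decidable (∀ _, _))

/-- steps along pairs not used before -/
def news : Finset (Fin N) := W.step.filter fun i => ∀ j ∈ W.step, j < i → W.edge x j ≠ W.edge x i

/-- new pairs at `v` up to time `b` (excluded) -/
def inc (v : Fin n) (b : ℕ) : Finset (Fin N) :=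
  (news W x).filter fun j => (j : ℕ) < b ∧ (x (W.prev j) = v ∨ x j = v)

/-- the other end of a step at `v` -/
def other (v : Fin n) (j : Fin N) : Fin n := if x (W.prev j) = v then x j else x (W.prev j)

/-- known neighbours at `x (prev i)` apart from the one just left -/
def cand (i : Fin N) : Finset (Fin n) :=
  ((inc W x (x (W.prev i)) i).image (other W x (x (W.prev i)))).erase (x (W.prev (W.prev i)))

/-- the prediction at an inner step -/
def Default (i : Fin N) : Prop := (cand W x i = ∅ ∧ Fresh x i) ∨ cand W x i = {x i}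

instance (i : Fin N) : Decidable (Default W x i) := by unfold Default; infer_instance

/-- positions which are not predicted -/
def code : Finset (Fin N) :=
  Finset.univ.filter fun i => i ∉ W.copy ∧ ¬ (i ∈ W.inner ∧ Default W x i)

/-- new pairs leading to old vertices -/
def gset : Finset (Fin N) := (news W x).filter fun i => ¬ Fresh x i

variable {W x}

lemma edge_eq_other {v : Fin n} {j : Fin N} (h : x (W.prev j) = v ∨ x j = v) :
    W.edge x j = s(v, other W x v j) := by
  unfold Scheme.edge other
  by_cases h1 : x (W.prev j) = v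
  · rw [if_pos h1, h1]
  · rw [if_neg h1, h.resolve_left h1, Sym2.eq_swap]

lemma exists_new {i : Fin N} (hi : i ∈ W.step) : ∃ j ∈ news W x, j ≤ i ∧ W.edge x j = W.edge x i := by
  induction i using WellFoundedLT.induction with
  | _ i ih =>
    by_cases h : ∀ j ∈ W.step, j < i → W.edge x j ≠ W.edge x i
    · exact ⟨i, mem_filter.2 ⟨hi, h⟩, le_rfl, rfl⟩
    · push Not at h
      obtain ⟨j, hj, hlt, he⟩ := h
      obtain ⟨k, hk, hkj, hke⟩ := ih j hlt hj
      exact ⟨k, hk, hkj.trans hlt.le, hke.trans he⟩

lemma news_injOn : Set.InjOn (W.edge x) (news W x) := by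
  intro a ha b hb h
  rw [mem_coe, news, mem_filter] at ha hb
  by_contra hne
  rcases lt_or_gt_of_ne hne with hlt | hlt
  · exact hb.2 a ha.1 hlt h
  · exact ha.2 b hb.1 hlt h.symm

lemma image_news : (news W x).image (W.edge x) = W.edges x := by
  refine Subset.antisymm (image_subset_image (filter_subset _ _)) fun e he => ?_
  obtain ⟨i, hi, rfl⟩ := mem_image.1 he
  obtain ⟨j, hj, -, hje⟩ := exists_new (x := x) hi
  exact mem_image.2 ⟨j, hj, hje⟩

lemma card_news : (news W x).card = (W.edges x).card := by
  rw [← image_news, card_image_of_injOn news_injOn]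

lemma exists_fresh (i : Fin N) : ∃ f, f ≤ i ∧ Fresh x f ∧ x f = x i := by
  induction i using WellFoundedLT.induction with
  | _ i ih =>
    by_cases h : Fresh x i
    · exact ⟨i, le_rfl, h, rfl⟩
    · simp only [Fresh, ne_eq, not_forall, not_not] at h
      obtain ⟨j, hj, he⟩ := h
      obtain ⟨f, h1, h2, h3⟩ := ih j hj
      exact ⟨f, h1.trans hj.le, h2, h3.trans he⟩

lemma fresh_new {i : Fin N} (hi : i ∈ W.step) (hf : Fresh x i) : i ∈ news W x := by
  refine mem_filter.2 ⟨hi, fun j hj hlt he => ?_⟩
  rcases Sym2.eq_iff.1 he with ⟨-, h⟩ | ⟨h, -⟩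
  · exact hf j hlt h
  · exact hf (W.prev j) ((W.prev_lt j (Or.inl hj)).trans hlt) h

/-- an earlier step along the same pair makes the other end a known neighbour -/
lemma known {i : Fin N} (hi : i ∈ W.step) {v w : Fin n} (he : W.edge x i = s(v, w)) {b : ℕ}
    (hb : (i : ℕ) < b) : w ∈ (inc W x v b).image (other W x v) := by
  obtain ⟨j, hj, hji, hje⟩ := exists_new (x := x) hi
  have h := hje.trans he
  have hv : x (W.prev j) = v ∨ x j = v := by
    rcases Sym2.eq_iff.1 h with ⟨h1, -⟩ | ⟨-, h2⟩
    · exact Or.inl h1
    · exact Or.inr h2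
  rw [edge_eq_other hv] at h
  have : (j : ℕ) < b := lt_of_le_of_lt (Fin.le_def.1 hji) hb
  exact mem_image.2 ⟨j, mem_filter.2 ⟨hj, this, hv⟩, Sym2.congr_right.1 h⟩

theorem stats (hw : W.Walk x) {H : ℕ} (hH : W.step.card = 2 * H) :
    ((univ : Finset (Fin N)).filter (Fresh x)).card + ((gset W x).card + (H - (W.edges x).card)) ≤
        W.roots.card + H ∧
      (code W x).card ≤ 13 * (W.roots.card + W.turn.card + W.childless.card +
        ((gset W x).card + (H - (W.edges x).card))) ∧
      (gset W x).card + (H - (W.edges x).card) ≤ H := by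
  classical
  set E := news W x with hE
  rw [← card_news, ← hE]
  set Fr := (univ : Finset (Fin N)).filter (Fresh x) with hFr
  set img := (univ : Finset (Fin N)).image x with himg
  set d : Fin n → ℕ := fun v => (inc W x v N).card with hd
  have hES : E ⊆ W.step := filter_subset _ _
  -- vertices correspond to fresh positions
  have hV : Fr.card = img.card := by
    have : img = Fr.image x := by
      ext v
      simp only [himg, hFr, mem_image, mem_filter, mem_univ, true_and]
      constructor
      · rintro ⟨i, rfl⟩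
        obtain ⟨f, -, h2, h3⟩ := exists_fresh (x := x) i
        exact ⟨f, h2, h3⟩
      · rintro ⟨i, -, rfl⟩; exact ⟨i, rfl⟩
    rw [this, card_image_of_injOn]
    intro a ha b hb h
    simp only [hFr, coe_filter, Set.mem_ofPred_eq] at ha hb
    by_contra hne
    rcases lt_or_gt_of_ne hne with hlt | hlt
    · exact hb.2 a hlt h
    · exact ha.2 b hlt h.symm
  have hsplit : (E.filter (Fresh x)).card + (gset W x).card = E.card := by
    rw [gset, ← hE]; exact card_filter_add_card_filter_not _
  have hVup : Fr.card ≤ W.roots.card + (E.filter (Fresh x)).card := by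
    refine (card_le_card fun i hi => ?_).trans (card_union_le _ _)
    simp only [hFr, mem_filter, mem_univ, true_and] at hi
    simp only [mem_union, Scheme.roots, mem_sdiff, mem_univ, true_and]
    by_cases hs : i ∈ W.step
    · exact Or.inr (mem_filter.2 ⟨fresh_new hs hi, hi⟩)
    · refine Or.inl ?_
      rintro (h | h)
      · exact hs h
      · exact hi _ (W.prev_lt i (Or.inr h)) (hw.copy_eq i h).symm
  have hVlo : (E.filter (Fresh x)).card ≤ Fr.card := card_le_card fun i hi =>
    mem_filter.2 ⟨mem_univ _, (mem_filter.1 hi).2⟩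
  -- incidences
  have hdc : ∀ U : Finset (Fin n), ∑ j ∈ E, (U.filter fun v => v ∈ W.edge x j).card = ∑ v ∈ U, d v := by
    intro U
    simp only [hd, inc, card_filter]
    rw [sum_comm]
    refine sum_congr rfl fun v _ => sum_congr rfl fun j _ => ?_
    simp [Scheme.edge, Sym2.mem_iff, eq_comm]
  have hends : ∀ (U : Finset (Fin n)) (j : Fin N), (U.filter fun v => v ∈ W.edge x j).card ≤ 2 := by
    intro U j
    refine (card_le_card (t := {x (W.prev j), x j}) fun v hv => ?_).trans card_le_two
    simpa [Scheme.edge, Sym2.mem_iff] using (mem_filter.1 hv).2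
  have hdsum : ∑ v ∈ img, d v = 2 * E.card := by
    rw [← hdc img, mul_comm]
    refine sum_const_nat fun j hj => ?_
    rw [show (img.filter fun v => v ∈ W.edge x j) = {x (W.prev j), x j} from ?_,
      card_pair (hw.step_ne j (hES hj)).symm]
    ext v
    simp only [mem_filter, Scheme.edge, Sym2.mem_iff, mem_insert, mem_singleton, himg, mem_image, mem_univ,
      true_and]
    exact ⟨fun h => h.2, fun h => ⟨h.elim (fun e => ⟨_, e.symm⟩) (fun e => ⟨_, e.symm⟩), h⟩⟩
  -- vertices with fewer than two neighbours are born at roots or at childless steps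
  have hlow : (img.filter fun v => d v < 2).card ≤ W.roots.card + W.childless.card := by
    refine (card_le_card (t := (W.roots ∪ W.childless).image x) fun v hv => ?_).trans
      (card_image_le.trans (card_union_le _ _))
    simp only [mem_filter, himg, mem_image, mem_univ, true_and] at hv
    obtain ⟨⟨i, rfl⟩, hv⟩ := hv
    obtain ⟨f, -, h2, h3⟩ := exists_fresh (x := x) i
    refine mem_image.2 ⟨f, ?_, h3⟩
    by_contra hc
    simp only [mem_union, Scheme.roots, mem_sdiff, mem_univ, true_and, not_or] at hc
    obtain ⟨hsc, hcl⟩ := hc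
    have hfs : f ∈ W.step := by
      rcases (by tauto : f ∈ W.step ∨ f ∈ W.copy) with h | h
      · exact h
      · exact absurd (hw.copy_eq f h).symm (h2 _ (W.prev_lt f (Or.inr h)))
    simp only [Scheme.childless, mem_filter, hfs, true_and, not_forall, not_not] at hcl
    obtain ⟨k, hk, hkf⟩ := hcl
    have hks : k ∈ W.step := (mem_filter.1 hk).1
    have hsub : ({x (W.prev f), x k} : Finset (Fin n)) ⊆ (inc W x (x i) N).image (other W x (x i)) := by
      intro a ha
      simp only [mem_insert, mem_singleton] at ha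
      rcases ha with rfl | rfl
      · exact known hfs (by rw [Scheme.edge, h3, Sym2.eq_swap]) f.2
      · exact known hks (by rw [Scheme.edge, hkf, h3]) k.2
    have h4 := (card_le_card hsub).trans card_image_le
    have h5 := hw.nb k hk
    rw [hkf] at h5
    rw [card_pair h5] at h4
    exact absurd hv (not_lt.2 h4)
  set H2 := ∑ v ∈ img, (d v - 2) with hH2
  have hH2le : H2 + 2 * Fr.card ≤ 2 * E.card + 2 * (W.roots.card + W.childless.card) := by
    rw [hV, ← hdsum]
    have : ∑ v ∈ img, (d v - 2 + 2) ≤ ∑ v ∈ img, (d v + if d v < 2 then 2 else 0) :=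
      sum_le_sum fun v _ => by split_ifs <;> omega
    rw [sum_add_distrib, sum_add_distrib, sum_const, ← sum_filter, sum_const, smul_eq_mul, smul_eq_mul] at this
    omega
  -- multiplicities
  have hmult : ∀ f : Sym2 (Fin n) → ℕ, ∑ i ∈ W.step, f (W.edge x i) =
      ∑ j ∈ E, W.mult x (W.edge x j) * f (W.edge x j) := by
    intro f
    rw [← sum_fiberwise_of_maps_to (g := W.edge x) (t := W.edges x) (fun i hi => mem_image_of_mem _ hi),
      ← image_news, sum_image news_injOn]
    exact sum_congr rfl fun j _ => sum_const_nat fun u hu => by rw [(mem_filter.1 hu).2]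
  have hev : ∀ j ∈ E, Even (W.mult x (W.edge x j)) := fun j hj => hw.even _ (mem_image_of_mem _ (hES hj))
  have htwo : ∀ j ∈ E, 2 ≤ W.mult x (W.edge x j) := by
    intro j hj
    obtain ⟨k, hk⟩ := hev j hj
    have : 0 < W.mult x (W.edge x j) := card_pos.2 ⟨j, mem_filter.2 ⟨hES hj, rfl⟩⟩
    omega
  have hmS : W.step.card = ∑ j ∈ E, W.mult x (W.edge x j) := by simpa using hmult fun _ => 1
  have hex : E.card ≤ H := by
    have := card_nsmul_le_sum E _ 2 htwo
    rw [← hmS, smul_eq_mul, hH] at this
    omega
  -- departures from vertices with at least three neighbours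
  set Hs := img.filter fun v => 3 ≤ d v with hHs
  have hH3 : ∑ v ∈ Hs, d v ≤ 3 * H2 := by
    rw [hH2, mul_sum]
    refine (sum_le_sum fun v hv => ?_).trans (sum_le_sum_of_subset (filter_subset _ _))
    have := (mem_filter.1 hv).2
    omega
  have hdep : (W.step.filter fun i => x (W.prev i) ∈ Hs).card ≤ 6 * H2 + 4 * (H - E.card) := by
    calc (W.step.filter fun i => x (W.prev i) ∈ Hs).card
        ≤ ∑ i ∈ W.step, (Hs.filter fun v => v ∈ W.edge x i).card := by
          rw [card_filter]
          refine sum_le_sum fun i _ => ?_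
          split_ifs with h
          · exact card_pos.2 ⟨_, mem_filter.2 ⟨h, by simp [Scheme.edge]⟩⟩
          · exact Nat.zero_le _
      _ = _ := hmult fun e => (Hs.filter fun v => v ∈ e).card
      _ ≤ ∑ j ∈ E, (2 * (Hs.filter fun v => v ∈ W.edge x j).card + (W.mult x (W.edge x j) - 2) * 2) :=
          sum_le_sum fun j hj => by
            have h2 := hends Hs j
            obtain ⟨k, hk⟩ := Nat.exists_eq_add_of_le (htwo j hj)
            rw [hk, add_mul, Nat.add_sub_cancel_left]
            exact Nat.add_le_add_left (Nat.mul_le_mul_left k h2) _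
      _ ≤ _ := by
          rw [sum_add_distrib, ← mul_sum, hdc, ← sum_mul]
          have : ∑ j ∈ E, (W.mult x (W.edge x j) - 2) + 2 * E.card = W.step.card := by
            conv_rhs => rw [hmS]
            rw [mul_comm, ← smul_eq_mul, ← sum_const, ← sum_add_distrib]
            exact sum_congr rfl fun j hj => by have := htwo j hj; omega
          omega
  -- the unpredicted inner steps
  set Bad := W.inner.filter fun i => ¬ Default W x i with hBad
  have hsub : Bad ⊆ gset W x ∪ W.step.filter (fun i => x (W.prev i) ∈ Hs) := by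
    intro i hi
    simp only [hBad, mem_filter] at hi
    obtain ⟨hi, hnd⟩ := hi
    obtain ⟨his, hps⟩ := mem_filter.1 hi
    set v := x (W.prev i) with hv
    set z := x (W.prev (W.prev i)) with hz
    have hzi : z ∈ (inc W x v i).image (other W x v) :=
      known hps (by rw [Scheme.edge, hv, hz, Sym2.eq_swap]) (Fin.lt_def.1 (W.prev_lt i (Or.inl his)))
    have hmon : inc W x v i ⊆ inc W x v N := fun j hj => by
      simp only [inc, mem_filter] at hj ⊢; exact ⟨hj.1, j.2, hj.2.2⟩
    have hzN : z ∈ (inc W x v N).image (other W x v) := image_subset_image hmon hzi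
    have hwN : x i ∈ (inc W x v N).image (other W x v) := known his rfl i.2
    rw [mem_union]
    rcases eq_empty_or_nonempty (cand W x i) with h0 | ⟨c, hc⟩
    · refine Or.inl (mem_filter.2 ⟨mem_filter.2 ⟨his, fun j hj hlt he => ?_⟩, fun h => hnd (Or.inl ⟨h0, h⟩)⟩)
      have hwi : x i ∈ (inc W x v i).image (other W x v) :=
        known hj (he.trans rfl) (Fin.lt_def.1 hlt)
      have : x i ∈ cand W x i := mem_erase.2 ⟨(hw.nb i hi).symm, hwi⟩
      rw [h0] at this
      exact absurd this (notMem_empty _)
    · refine Or.inr (mem_filter.2 ⟨his, mem_filter.2 ⟨mem_image_of_mem _ (mem_univ _), ?_⟩⟩)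
      have hne : ∃ c ∈ cand W x i, c ≠ x i := by
        by_contra hall
        push Not at hall
        exact hnd (Or.inr (eq_singleton_iff_unique_mem.2 ⟨hall c hc ▸ hc, hall⟩))
      obtain ⟨c, hc, hcw⟩ := hne
      obtain ⟨hcz, hci⟩ := mem_erase.1 hc
      have h3 : ({z, x i, c} : Finset (Fin n)).card = 3 := by
        rw [card_insert_of_notMem, card_pair hcw.symm]
        simp only [mem_insert, mem_singleton, not_or]
        exact ⟨hw.nb i hi, hcz.symm⟩
      rw [← h3]
      refine (card_le_card fun a ha => ?_).trans (card_image_le (s := inc W x v N) (f := other W x v))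
      simp only [mem_insert, mem_singleton] at ha
      rcases ha with rfl | rfl | rfl
      · exact hzN
      · exact hwN
      · exact image_subset_image hmon hci
  have hBadc : Bad.card ≤ (gset W x).card + (6 * H2 + 4 * (H - E.card)) :=
    (card_le_card hsub).trans ((card_union_le _ _).trans (Nat.add_le_add_left hdep _))
  have hcode : (code W x).card ≤ W.roots.card + W.turn.card + Bad.card := by
    refine (card_le_card (t := W.roots ∪ W.turn ∪ Bad) fun i hi => ?_).trans
      ((card_union_le _ _).trans (Nat.add_le_add_right (card_union_le _ _) _))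
    simp only [code, mem_filter, mem_univ, true_and] at hi
    simp only [mem_union, Scheme.roots, Scheme.turn, mem_sdiff, mem_univ, true_and, hBad, mem_filter]
    tauto
  refine ⟨?_, ?_, ?_⟩ <;> omega

/-- first-occurrence maps -/
def IsPat (p : Fin N → Fin N) : Prop := ∀ i, p i ≤ i ∧ p (p i) = p i

lemma pat_fresh {p : Fin N → Fin N} (hp : IsPat p) (i : Fin N) : Fresh p i ↔ p i = i := by
  refine ⟨fun h => ?_, fun h j hj e => ?_⟩
  · by_contra hne
    exact h (p i) (lt_of_le_of_ne (hp i).1 hne) (hp i).2
  · rw [h] at e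
    have := (hp j).1
    rw [e] at this
    exact absurd hj (not_lt.2 this)

lemma pat_eq {p q : Fin N → Fin N} (hp : IsPat p) (hq : IsPat q) (wp : W.Walk p) (wq : W.Walk q)
    (h : (code W p).image (fun i => (i, p i)) = (code W q).image (fun i => (i, q i))) : p = q := by
  funext i
  induction i using WellFoundedLT.induction with
  | _ i ih =>
  have h' := fun b => Finset.ext_iff.1 h (i, b)
  simp only [mem_image, Prod.mk.injEq] at h'
  by_cases hcp : i ∈ code W p
  · obtain ⟨u, -, rfl, hu⟩ := (h' _).1 ⟨i, hcp, rfl, rfl⟩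
    exact hu.symm
  by_cases hcq : i ∈ code W q
  · obtain ⟨u, -, rfl, hu⟩ := (h' _).2 ⟨i, hcq, rfl, rfl⟩
    exact hu
  by_cases hcopy : i ∈ W.copy
  · rw [wp.copy_eq i hcopy, wq.copy_eq i hcopy, ih _ (W.prev_lt i (Or.inr hcopy))]
  simp only [code, mem_filter, mem_univ, true_and, hcopy, not_false_eq_true, not_not] at hcp hcq
  obtain ⟨hi, dp⟩ := hcp
  obtain ⟨-, dq⟩ := hcq
  obtain ⟨his, hps⟩ := mem_filter.1 hi
  have l1 := W.prev_lt i (Or.inl his)
  have l2 := (W.prev_lt _ (Or.inl hps)).trans l1
  have hag : ∀ j ∈ W.step, j < i → p j = q j ∧ p (W.prev j) = q (W.prev j) := fun j hj hlt =>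
    ⟨ih j hlt, ih _ ((W.prev_lt j (Or.inl hj)).trans hlt)⟩
  have hinc : inc W p (p (W.prev i)) i = inc W q (p (W.prev i)) i := by
    ext j
    simp only [inc, news, mem_filter]
    by_cases hj : j ∈ W.step ∧ (j : ℕ) < i
    · have hji : j < i := Fin.lt_def.2 hj.2
      rw [(hag j hj.1 hji).1, (hag j hj.1 hji).2]
      refine and_congr_left' (and_congr_right fun _ => forall₂_congr fun u hu =>
        imp_congr_right fun hlt => ?_)
      simp only [Scheme.edge, hag u hu (hlt.trans hji), hag j hj.1 hji]
    · tauto
  have hcand : cand W p i = cand W q i := by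
    unfold cand
    rw [← ih _ l1, ← ih _ l2, ← hinc]
    congr 1
    refine image_congr fun j hj => ?_
    simp only [mem_coe, inc, news, mem_filter] at hj
    simp only [other, hag j hj.1.1 (Fin.lt_def.2 hj.2.1)]
  rcases dp with ⟨a, b⟩ | a <;> rcases dq with ⟨a', b'⟩ | a'
  · rw [(pat_fresh hp i).1 b, (pat_fresh hq i).1 b']
  · rw [← hcand, a] at a'; exact absurd a'.symm (singleton_ne_empty _)
  · rw [← hcand, a] at a'; exact absurd a' (singleton_ne_empty _)
  · rw [← hcand, a] at a'; exact singleton_injective a'

lemma card_small_sets {ι : Type*} [Fintype ι] [DecidableEq ι] (j : ℕ) :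
    ((univ : Finset (Finset ι)).filter fun s => s.card ≤ j).card ≤ (Fintype.card ι + 1) ^ j := by
  calc ((univ : Finset (Finset ι)).filter fun s => s.card ≤ j).card
      ≤ ((range (j + 1)).biUnion fun i => powersetCard i (univ : Finset ι)).card :=
        card_le_card fun s hs => mem_biUnion.2 ⟨s.card, mem_range.2 (Nat.lt_succ_iff.2 (mem_filter.1 hs).2),
          mem_powersetCard.2 ⟨subset_univ _, rfl⟩⟩
    _ ≤ ∑ i ∈ range (j + 1), (powersetCard i (univ : Finset ι)).card := card_biUnion_le
    _ ≤ ∑ i ∈ range (j + 1), Fintype.card ι ^ i * 1 ^ (j - i) * j.choose i := by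
        refine sum_le_sum fun i hi => ?_
        rw [card_powersetCard, card_univ, one_pow, mul_one]
        exact (Nat.choose_le_pow _ _).trans
          (Nat.le_mul_of_pos_right _ (Nat.choose_pos (Nat.lt_succ_iff.1 (mem_range.1 hi))))
    _ = _ := (add_pow _ _ _).symm

/-- The counting bound of the trace method. -/
theorem count_bound : ∃ C : ℕ, ∀ (N n : ℕ) (W : Scheme N) (H T : ℕ), W.step.card = 2 * H →
    W.roots.card + W.turn.card + W.childless.card ≤ T → (N + 2) ^ C ≤ n →
    ∑ x ∈ W.walks n, (N + 1) ^ (H - (W.edges x).card) ≤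
      n ^ (W.roots.card + H) * (N + 2) ^ (C * (T + 1)) := by
  classical
  refine ⟨27, fun N n W H T hH hT hn => ?_⟩
  set e := W.roots.card + H with he
  have hfirst : ∀ (x : Fin N → Fin n) (i : Fin N), (univ.filter fun s => x s = x i).Nonempty :=
    fun x i => ⟨i, by simp⟩
  set pat : (Fin N → Fin n) → (Fin N → Fin N) := fun x i =>
    (univ.filter fun s => x s = x i).min' (hfirst x i) with hpat
  have hxp : ∀ (x : Fin N → Fin n) (i : Fin N), x (pat x i) = x i := fun x i => (mem_filter.1 (min'_mem _ (hfirst x i))).2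
  have hpe : ∀ (x : Fin N → Fin n) (s i : Fin N), (pat x s = pat x i ↔ x s = x i) := by
    intro x s i
    refine ⟨fun h => by rw [← hxp x s, h, hxp x i], fun h => ?_⟩
    simp only [hpat, h]
  have hedge : ∀ (x : Fin N → Fin n) (i j : Fin N), (W.edge (pat x) i = W.edge (pat x) j ↔ W.edge x i = W.edge x j) := by
    intro x i j
    simp only [Scheme.edge, Sym2.eq_iff, hpe]
  have hmult : ∀ (x : Fin N → Fin n) (i : Fin N), W.mult (pat x) (W.edge (pat x) i) = W.mult x (W.edge x i) := fun x i =>
    congrArg card (filter_congr fun j _ => hedge x j i)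
  have hedges : ∀ x : Fin N → Fin n, (W.edges (pat x)).card = (W.edges x).card := fun x => by
    rw [← card_news, ← card_news]
    exact congrArg card (filter_congr fun i _ => forall₂_congr fun j _ =>
      imp_congr_right fun _ => not_congr (hedge x j i))
  set Pats := (univ : Finset (Fin N → Fin N)).filter fun p => IsPat p ∧ W.Walk p with hPats
  have hmem : ∀ x ∈ W.walks n, pat x ∈ Pats := by
    intro x hx
    have hw := (mem_filter.1 hx).2
    refine mem_filter.2 ⟨mem_univ _, fun i => ⟨min'_le _ _ (by simp), (hpe x _ _).2 (hxp x i)⟩,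
      ⟨fun i hi => (hpe x _ _).2 (hw.copy_eq i hi), fun i hi => fun h => hw.step_ne i hi ((hpe x _ _).1 h),
        fun i hi h => hw.nb i hi ((hpe x _ _).1 h), fun ed hed => ?_⟩⟩
    obtain ⟨i, hi, rfl⟩ := mem_image.1 hed
    rw [hmult]
    exact hw.even _ (mem_image_of_mem _ hi)
  set V : (Fin N → Fin N) → ℕ := fun p => ((univ : Finset (Fin N)).filter (Fresh p)).card with hVd
  have hfib : ∀ p ∈ Pats, ((W.walks n).filter fun x => pat x = p).card ≤ n ^ V p := by
    intro p hp
    have hp' := (mem_filter.1 hp).2.1
    refine (card_le_card_of_injOn (t := (univ : Finset ({i : Fin N // p i = i} → Fin n)))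
      (fun x i => x i.1) (fun _ _ => mem_univ _) fun a ha b hb hab => ?_).trans (le_of_eq ?_)
    · simp only [coe_filter, Set.mem_ofPred_eq] at ha hb
      funext i
      have := congrFun hab ⟨p i, (hp' i).2⟩
      rwa [← hxp a i, ← hxp b i, ha.2, hb.2]
    · rw [card_univ, Fintype.card_fun, Fintype.card_fin, Fintype.card_subtype]
      exact congrArg (n ^ ·) (congrArg card (filter_congr fun i _ => (pat_fresh hp' i).symm))
  set kk : (Fin N → Fin N) → ℕ := fun p => (gset W p).card + (H - (W.edges p).card) with hkk
  have hgrp : ∀ k, (Pats.filter fun p => kk p = k).card ≤ (N + 2) ^ (26 * (T + k)) := by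
    intro k
    refine (card_le_card_of_injOn (t := univ.filter fun s : Finset (Fin N × Fin N) => s.card ≤ 13 * (T + k))
      (fun p => (code W p).image fun i => (i, p i)) (fun p hp => ?_) fun p hp q hq hpq => ?_).trans
      ((card_small_sets _).trans ?_)
    · simp only [hPats, coe_filter, Set.mem_ofPred_eq, mem_filter] at hp
      refine mem_coe.2 (mem_filter.2 ⟨mem_univ _, card_image_le.trans ?_⟩)
      have h2 := (stats hp.1.2.2 hH).2.1
      have h3 := hp.2
      simp only [hkk] at h3
      omega
    · simp only [hPats, coe_filter, Set.mem_ofPred_eq, mem_filter] at hp hq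
      exact pat_eq hp.1.2.1 hq.1.2.1 hp.1.2.2 hq.1.2.2 hpq
    · rw [Fintype.card_prod, Fintype.card_fin,
        show (N + 2) ^ (26 * (T + k)) = ((N + 2) ^ 2) ^ (13 * (T + k)) by rw [← pow_mul]; ring_nf]
      exact Nat.pow_le_pow_left (by nlinarith) _
  have hwt : ∀ p ∈ Pats, (N + 2) ^ (26 * (T + kk p)) * (n ^ V p * (N + 1) ^ (H - (W.edges p).card)) ≤
      n ^ e * (N + 2) ^ (26 * T) := by
    intro p hp
    obtain ⟨h1, -, -⟩ := stats (mem_filter.1 hp).2.2 hH
    calc (N + 2) ^ (26 * (T + kk p)) * (n ^ V p * (N + 1) ^ (H - (W.edges p).card))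
        ≤ (N + 2) ^ (26 * (T + kk p)) * (n ^ V p * (N + 2) ^ kk p) :=
          Nat.mul_le_mul_left _ (Nat.mul_le_mul_left _ ((Nat.pow_le_pow_left (by omega) _).trans
            (Nat.pow_le_pow_right (by omega) (by simp only [hkk]; omega))))
      _ = n ^ V p * (N + 2) ^ (26 * T) * ((N + 2) ^ 27) ^ kk p := by
          rw [← pow_mul, mul_add, pow_add, show 27 * kk p = 26 * kk p + kk p by ring, pow_add]; ring
      _ ≤ n ^ V p * (N + 2) ^ (26 * T) * n ^ kk p := Nat.mul_le_mul_left _ (Nat.pow_le_pow_left hn _)
      _ = n ^ (V p + kk p) * (N + 2) ^ (26 * T) := by rw [pow_add]; ring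
      _ ≤ _ := by
          refine Nat.mul_le_mul_right _ (Nat.pow_le_pow_right
            (Nat.lt_of_lt_of_le (by positivity) hn) ?_)
          simp only [hkk, hVd, he]; omega
  calc ∑ x ∈ W.walks n, (N + 1) ^ (H - (W.edges x).card)
      = ∑ p ∈ Pats, ((W.walks n).filter fun x => pat x = p).card * (N + 1) ^ (H - (W.edges p).card) := by
        rw [← sum_fiberwise_of_maps_to hmem]
        refine sum_congr rfl fun p _ => sum_const_nat fun x hx => ?_
        rw [mem_filter] at hx
        rw [← hedges x, hx.2]
    _ ≤ ∑ p ∈ Pats, n ^ V p * (N + 1) ^ (H - (W.edges p).card) :=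
        sum_le_sum fun p hp => Nat.mul_le_mul_right _ (hfib p hp)
    _ = ∑ k ∈ range (N + 2), ∑ p ∈ Pats.filter (fun p => kk p = k),
          n ^ V p * (N + 1) ^ (H - (W.edges p).card) := by
        refine (sum_fiberwise_of_maps_to (fun p hp => mem_range.2 ?_) _).symm
        have h3 := (stats (mem_filter.1 hp).2.2 hH).2.2
        have h4 := card_le_univ W.step
        rw [Fintype.card_fin] at h4
        simp only [hkk]; omega
    _ ≤ ∑ _k ∈ range (N + 2), n ^ e * (N + 2) ^ (26 * T) := by
        refine sum_le_sum fun k _ => ?_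
        refine Nat.le_of_mul_le_mul_left ?_ (show 0 < (N + 2) ^ (26 * (T + k)) by positivity)
        rw [mul_sum]
        refine (sum_le_card_nsmul _ _ (n ^ e * (N + 2) ^ (26 * T)) fun p hp => ?_).trans ?_
        · rw [mem_filter] at hp
          rw [← hp.2]; exact hwt p hp.1
        · rw [smul_eq_mul]; exact Nat.mul_le_mul_right _ (hgrp k)
    _ = n ^ e * (N + 2) ^ (26 * T + 1) := by
        rw [sum_const, card_range, smul_eq_mul, pow_succ]; ring
    _ ≤ _ := Nat.mul_le_mul_left _ (Nat.pow_le_pow_right (by omega) (by omega))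

end Vale.Agent.P146.Trace
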