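import Vale.Agent.P146.Trace.Expect

/-!
# P146, trace method: the operator bound from the bound on the number of walks
-/

open MeasureTheory Finset Matrix
open Vale.Agent.P150 (gauss)

noncomputable section

namespace Vale.Agent.P146.Trace

variable {n : ℕ} (P : Piece (Fin n)) (A : Finset (Fin P.m → Fin n))

/-- placements against their values on the positions in `Q` -/
def incMat (Q : Fin P.m → Prop) [DecidablePred Q] :
    Matrix {φ // φ ∈ A} ({j // Q j} → Fin n) ℝ :=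
  Matrix.of fun φ a => if (fun j : {j // Q j} => φ.1 j.1) = a then 1 else 0

/-- the couplings along the placements -/
def coupMat (g : Edge n → ℝ) : Matrix {φ // φ ∈ A} {φ // φ ∈ A} ℝ :=
  Matrix.diagonal fun φ => P.innerProd φ.1 g

variable {P A}

theorem incMat_mulVec (Q : Fin P.m → Prop) [DecidablePred Q] (v : ({j // Q j} → Fin n) → ℝ)
    (φ : {φ // φ ∈ A}) : (incMat P A Q *ᵥ v) φ = v fun j => φ.1 j.1 := by
  simp [incMat, Matrix.mulVec, dotProduct]

theorem incMat_mul_transpose (Q : Fin P.m → Prop) [DecidablePred Q] (φ ψ : {φ // φ ∈ A}) :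
    (incMat P A Q * (incMat P A Q)ᵀ) φ ψ = if ∀ j, Q j → φ.1 j = ψ.1 j then 1 else 0 := by
  rw [mul_apply]
  simp only [incMat, of_apply, transpose_apply, ite_mul, one_mul, zero_mul, sum_ite_eq, mem_univ,
    if_true]
  congr 1
  simp [funext_iff, eq_comm]

theorem coup_inc (Q : Fin P.m → Prop) [DecidablePred Q] (g : Edge n → ℝ) :
    coupMat P A g * (incMat P A Q * (incMat P A Q)ᵀ) = sideMat P A Q g := by
  ext φ ψ
  rw [coupMat, diagonal_mul, incMat_mul_transpose]
  simp [sideMat]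

/-- the matrix of the bilinear form of the end vectors -/
def opMat (g : Edge n → ℝ) :
    Matrix ({j // ¬Tgt P j} → Fin n) ({j // P.link j ≠ true} → Fin n) ℝ :=
  (incMat P A fun j => ¬Tgt P j)ᵀ * coupMat P A g * incMat P A fun j => P.link j ≠ true

theorem gram_pow_trace (g : Edge n → ℝ) (q : ℕ) :
    (((opMat (A := A) g)ᵀ * opMat (A := A) g) ^ (q + 1)).trace = trc P A q g := by
  set S := incMat P A fun j => ¬Tgt P j
  set Z := incMat P A fun j => P.link j ≠ true
  set D := coupMat P A g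
  have hD : Dᵀ = D := diagonal_transpose _
  have e : (opMat (A := A) g)ᵀ * opMat (A := A) g = Zᵀ * (D * (S * Sᵀ) * D) * Z := by
    show (Sᵀ * D * Z)ᵀ * (Sᵀ * D * Z) = _
    simp only [transpose_mul, transpose_transpose, hD, Matrix.mul_assoc]
  rw [e, trace_conj_pow, trc, ← coup_inc, ← coup_inc, Matrix.mul_assoc]

theorem sum_eq_bilinear (g : Edge n → ℝ) (f : Fin P.m → Fin n → ℝ)
    (h1 : ∀ j, j ∈ P.inner → (∃ i ∈ P.inner, P.next i = j) → ∀ a, f j a = 1) :
    ∑ φ ∈ A, P.innerProd φ g * ∏ j, f j (φ j) =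
      (fun a => ∏ j : {j // ¬Tgt P j}, f j (a j)) ⬝ᵥ
        (opMat (A := A) g *ᵥ fun z => ∏ j : {j // P.link j ≠ true},
          if ¬Tgt P j.1 then 1 else f j (z j)) := by
  rw [opMat, ← mulVec_mulVec, ← mulVec_mulVec, dotProduct_mulVec, ← mulVec_transpose,
    transpose_transpose, dotProduct, ← sum_coe_sort A]
  refine sum_congr rfl fun φ _ => ?_
  rw [coupMat, mulVec_diagonal, incMat_mulVec, incMat_mulVec]
  have e1 := prod_subtype (F := inferInstance) (univ.filter fun j => ¬Tgt P j) (p := fun j => ¬Tgt P j)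
    (fun j => by simp) fun j => f j (φ.1 j)
  have e2 := prod_subtype (F := inferInstance) (univ.filter fun j => P.link j ≠ true)
    (p := fun j => P.link j ≠ true) (fun j => by simp)
    fun j => if ¬Tgt P j then (1 : ℝ) else f j (φ.1 j)
  rw [← e1, ← e2, prod_filter, prod_filter, mul_left_comm, ← prod_mul_distrib]
  refine congrArg _ (prod_congr rfl fun j _ => ?_)
  by_cases ht : Tgt P j
  · by_cases hj : P.link j = true
    · obtain ⟨i, hi, rfl⟩ := ht
      simp [h1 _ (mem_inner.2 hj) ⟨i, mem_inner.2 hi, rfl⟩ _, hj, tgt_next hi]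
    · simp [ht, hj]
  · by_cases hj : P.link j = true <;> simp [ht, hj]

theorem dot_self_le {ι : Type*} [Fintype ι] (v : ι → ℝ) (hv : ∀ i, |v i| ≤ 1) :
    v ⬝ᵥ v ≤ Fintype.card ι := by
  refine (sum_le_sum fun i _ => ?_).trans_eq (by simp : ∑ _i : ι, (1 : ℝ) = _)
  rw [← abs_mul_abs_self (v i)]
  nlinarith [hv i, abs_nonneg (v i)]

theorem abs_prod_le_one {ι : Type*} [Fintype ι] (v : ι → ℝ) (hv : ∀ i, |v i| ≤ 1) :
    |∏ i, v i| ≤ 1 := by
  rw [abs_prod]
  exact prod_le_one (fun i _ => abs_nonneg _) fun i _ => hv i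

/-- the form is at most a root of the trace, for a power of two -/
theorem abs_sum_le (hl : LinkLt P) {q k : ℕ} (hk : q + 1 = 2 ^ (k + 1)) (g : Edge n → ℝ)
    (f : Fin P.m → Fin n → ℝ) (hf : ∀ j a, |f j a| ≤ 1)
    (h1 : ∀ j, j ∈ P.inner → (∃ i ∈ P.inner, P.next i = j) → ∀ a, f j a = 1) :
    0 ≤ trc P A q g ∧ |∑ φ ∈ A, P.innerProd φ g * ∏ j, f j (φ j)| ≤
      Real.sqrt (trc P A q g ^ ((↑(q + 1) : ℝ)⁻¹)) * (n : ℝ) ^ (P.m - P.inner.card) := by
  rw [sum_eq_bilinear g f h1]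
  set M := opMat (A := A) g
  set u : ({j // ¬Tgt P j} → Fin n) → ℝ := fun a => ∏ j, f j.1 (a j) with hu
  set w : ({j // P.link j ≠ true} → Fin n) → ℝ := fun z =>
    ∏ j : {j // P.link j ≠ true}, if ¬Tgt P j.1 then 1 else f j.1 (z j)
  set S := Mᵀ * M with hS
  have hsym : S.IsSymm := by rw [hS, IsSymm, transpose_mul, transpose_transpose]
  have hquad : w ⬝ᵥ (S *ᵥ w) = (M *ᵥ w) ⬝ᵥ (M *ᵥ w) := by
    rw [hS, ← mulVec_mulVec, dotProduct_mulVec, vecMul_transpose]
  obtain ⟨ht0, hpow⟩ := quad_le_trace hsym w k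
  rw [← hk, hS, gram_pow_trace] at ht0
  rw [← hk] at hpow
  rw [hS, gram_pow_trace, ← hS, hquad] at hpow
  refine ⟨ht0, ?_⟩
  set t := trc P A q g
  set ρ := t ^ ((↑(q + 1) : ℝ)⁻¹)
  have hρ : 0 ≤ ρ := Real.rpow_nonneg ht0 _
  have hρp : ρ ^ (q + 1) = t := Real.rpow_inv_natCast_pow ht0 (Nat.succ_ne_zero q)
  rw [← hρp, ← mul_pow] at hpow
  have hMw := le_of_pow_le_pow_left₀ (Nat.succ_ne_zero q)
    (mul_nonneg (dot_self_nonneg w) hρ) hpow
  have hn : (0 : ℝ) ≤ (n : ℝ) ^ (P.m - P.inner.card) := by positivity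
  have huu : u ⬝ᵥ u ≤ (n : ℝ) ^ (P.m - P.inner.card) := by
    refine (dot_self_le u fun a => abs_prod_le_one _ fun j => hf _ _).trans_eq ?_
    rw [Fintype.card_fun, Fintype.card_fin, Fintype.card_subtype, card_not_tgt hl, Nat.cast_pow]
  have hww : w ⬝ᵥ w ≤ (n : ℝ) ^ (P.m - P.inner.card) := by
    refine (dot_self_le w fun a => abs_prod_le_one _ fun j => ?_).trans_eq ?_
    · split_ifs
      · exact hf _ _
      · simp
    · rw [Fintype.card_fun, Fintype.card_fin, Fintype.card_subtype, card_not_link, Nat.cast_pow]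
  refine abs_le_of_sq_le_sq ?_ (mul_nonneg (Real.sqrt_nonneg _) hn)
  rw [mul_pow, Real.sq_sqrt hρ]
  refine (sq_dot_le u (M *ᵥ w)).trans ?_
  refine (mul_le_mul huu (hMw.trans (mul_le_mul_of_nonneg_right hww hρ))
    (dot_self_nonneg _) hn).trans_eq ?_
  ring

/-- Jensen for a root -/
theorem integral_root_le {α : Type*} [MeasurableSpace α] {μ : Measure α} [IsProbabilityMeasure μ]
    {t : α → ℝ} (h0 : ∀ a, 0 ≤ t a) (hi : Integrable t μ) {p : ℕ} (hp : 1 ≤ p) {c : ℝ} (hc : 0 < c)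
    (hle : ∫ a, t a ∂μ ≤ c ^ p) :
    Integrable (fun a => t a ^ ((p : ℝ)⁻¹)) μ ∧ ∫ a, t a ^ ((p : ℝ)⁻¹) ∂μ ≤ c := by
  have hp0 : (0 : ℝ) < p := by exact_mod_cast hp
  have hcp : 0 < c ^ p := pow_pos hc p
  have key : ∀ a, t a ^ ((p : ℝ)⁻¹) ≤ c * (1 + (p : ℝ)⁻¹ * (t a / c ^ p - 1)) := fun a => by
    have h := rpow_one_add_le_one_add_mul_self (s := t a / c ^ p - 1)
      (by linarith [div_nonneg (h0 a) hcp.le]) (inv_nonneg.2 hp0.le)
      (inv_le_one_of_one_le₀ (by exact_mod_cast hp))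
    rw [add_sub_cancel, Real.div_rpow (h0 a) hcp.le, Real.pow_rpow_inv_natCast hc.le (by omega),
      div_le_iff₀ hc] at h
    rw [mul_comm c]
    exact h
  have hb : Integrable (fun a => c * (1 + (p : ℝ)⁻¹ * (t a / c ^ p - 1))) μ :=
    ((integrable_const 1).add (((hi.div_const _).sub (integrable_const 1)).const_mul _)).const_mul c
  have hroot : Integrable (fun a => t a ^ ((p : ℝ)⁻¹)) μ :=
    hb.mono' ((Real.continuous_rpow_const (inv_nonneg.2 hp0.le)).comp_aestronglyMeasurable hi.1)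
      (Filter.Eventually.of_forall fun a => by
        rw [Real.norm_eq_abs, abs_of_nonneg (Real.rpow_nonneg (h0 a) _)]
        exact key a)
  refine ⟨hroot, (integral_mono hroot hb key).trans ?_⟩
  have hi1 : Integrable (fun a => t a / c ^ p) μ := hi.div_const _
  have hi2 : Integrable (fun a => (p : ℝ)⁻¹ * (t a / c ^ p - 1)) μ :=
    (hi1.sub (integrable_const 1)).const_mul _
  rw [integral_const_mul, integral_add (integrable_const 1) hi2, integral_const_mul,
    integral_sub hi1 (integrable_const 1), integral_div, integral_const,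
    probReal_univ, smul_eq_mul, mul_one]
  refine mul_le_of_le_one_right hc.le ?_
  have : (∫ a, t a ∂μ) / c ^ p ≤ 1 := (div_le_one hcp).2 hle
  nlinarith [inv_nonneg.2 hp0.le]

/-- the bound on the number of walks with constant `C` -/
def CountBound (C : ℕ) : Prop :=
  ∀ (N n : ℕ) (W : Scheme N) (H T : ℕ), W.step.card = 2 * H →
    W.roots.card + W.turn.card + W.childless.card ≤ T → (N + 2) ^ C ≤ n →
    ∑ x ∈ W.walks n, (N + 1) ^ (H - (W.edges x).card) ≤
      n ^ (W.roots.card + H) * (N + 2) ^ (C * (T + 1))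

theorem exists_two_pow {K : ℕ} (hK : 2 ≤ K) : ∃ k, K ≤ 2 ^ (k + 1) ∧ 2 ^ (k + 1) ≤ 2 * K := by
  refine ⟨Nat.log 2 K, (Nat.lt_pow_succ_log_self one_lt_two K).le, ?_⟩
  rw [pow_succ']
  exact Nat.mul_le_mul_left 2 (Nat.pow_log_le_self 2 (by omega))

theorem chain_bound_of_count {C : ℕ} (hC : CountBound C) :
    ∀ (n K : ℕ) (P : Piece (Fin n)),
    (∀ j, P.link j = true → (j : ℕ) + 1 < P.m) → P.m ≤ K → 2 ≤ K → K ^ (30 * C + 1) ≤ n →
    n ≤ 2 ^ K → ∀ A : Finset (Fin P.m → Fin n), (∀ φ ∈ A, Function.Injective φ) →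
    ∃ N : (Edge n → ℝ) → ℝ, MemLp N 2 (gauss (Edge n)) ∧
      ∫ g, N g ^ 2 ∂gauss (Edge n) ≤
        (n : ℝ) ^ P.inner.card * (K : ℝ) ^ ((30 * C + 1) * (P.m - P.inner.card)) ∧
      ∀ (g : Edge n → ℝ) (f : Fin P.m → Fin n → ℝ), (∀ j a, |f j a| ≤ 1) →
        (∀ j, j ∈ P.inner → (∃ i ∈ P.inner, P.next i = j) → ∀ a, f j a = 1) →
        |∑ φ ∈ A, P.innerProd φ g * ∏ j, f j (φ j)| ≤ N g * (n : ℝ) ^ (P.m - P.inner.card) := by
  intro n K P hl hm hK hKn hn A hA
  set r := P.m - P.inner.card with hr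
  rcases Nat.eq_zero_or_pos r with hr0 | hr0
  · -- no positions at all
    have hm0 : P.m = 0 := by
      by_contra hne
      have h := card_not_link (P := P)
      rw [← hr, hr0, card_eq_zero, filter_eq_empty_iff] at h
      have hlast := h (mem_univ (⟨P.m - 1, by omega⟩ : Fin P.m))
      rw [ne_eq, not_not] at hlast
      have := hl _ hlast
      simp only at this
      omega
    have : IsEmpty (Fin P.m) := by rw [hm0]; infer_instance
    refine ⟨fun _ => 1, memLp_const _, ?_, fun g f _ _ => ?_⟩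
    · have : P.inner.card = 0 := by simp [Finset.eq_empty_of_isEmpty P.inner]
      rw [this, hr0]
      simp
    · have hA1 : A.card ≤ 1 := (card_le_univ A).trans_eq (by simp)
      rw [hr0, pow_zero, mul_one]
      refine (abs_sum_le_sum_abs _ _).trans ?_
      rw [show ∑ φ ∈ A, |P.innerProd φ g * ∏ j, f j (φ j)| = A.card by
        simp [Piece.innerProd, Finset.eq_empty_of_isEmpty P.inner]]
      show (A.card : ℝ) ≤ 1
      exact_mod_cast hA1
  obtain ⟨k, hKp, hpK⟩ := exists_two_pow hK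
  obtain ⟨q, hq⟩ : ∃ q, q + 1 = 2 ^ (k + 1) := ⟨2 ^ (k + 1) - 1, Nat.sub_add_cancel Nat.one_le_two_pow⟩
  rw [← hq] at hKp hpK
  set W := segScheme P (q + 1) hl
  have hN : (q + 1) * 2 * P.m + 2 ≤ K ^ 5 := by
    have h1 : (q + 1) * 2 * P.m ≤ 4 * K ^ 2 := by
      rw [pow_two, ← mul_assoc]
      exact Nat.mul_le_mul (by omega) hm
    have h2 : 8 ≤ K ^ 3 := by
      have := Nat.pow_le_pow_left hK 3
      omega
    have h3 : 4 ≤ K ^ 2 := by
      have := Nat.pow_le_pow_left hK 2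
      omega
    have h4 : K ^ 5 = K ^ 3 * K ^ 2 := by ring
    nlinarith
  have hK5 : ((q + 1) * 2 * P.m + 2) ^ C ≤ n :=
    ((Nat.pow_le_pow_left hN C).trans (by
      rw [← pow_mul]; exact Nat.pow_le_pow_right (by omega) (by omega))).trans hKn
  have hroots : W.roots.card = r := card_roots hl (Nat.succ_pos q)
  have hT : W.roots.card + W.turn.card + W.childless.card ≤ 5 * ((q + 1) * r) := by
    have := card_turn_le (p := q + 1) hl
    have : r ≤ (q + 1) * r := Nat.le_mul_of_pos_left r (Nat.succ_pos q)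
    rw [hroots]
    simp only [W, r] at *
    omega
  have hwalks := hC _ n W _ _ (card_step hl) hT hK5
  rw [hroots] at hwalks
  obtain ⟨hint, hexp⟩ := integral_trc_le (q := q) hl hA
  set c : ℝ := (n : ℝ) ^ P.inner.card * (K : ℝ) ^ ((30 * C + 1) * r) with hc
  have hnpos : 0 < n := lt_of_lt_of_le (pow_pos (by omega) _) hKn
  have hcpos : 0 < c := by rw [hc]; positivity
  have hle : ∫ g, trc P A q g ∂gauss (Edge n) ≤ c ^ (q + 1) := by
    refine hexp.trans ?_
    rw [hc, mul_pow, ← pow_mul, ← pow_mul]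
    have h1 : n ^ r ≤ K ^ ((q + 1) * r) := by
      refine (Nat.pow_le_pow_left hn r).trans ?_
      rw [← pow_mul]
      exact (Nat.pow_le_pow_left hK _).trans
        (Nat.pow_le_pow_right (by omega) (Nat.mul_le_mul_right r hKp))
    have h2 : ((q + 1) * 2 * P.m + 2) ^ (C * (5 * ((q + 1) * r) + 1)) ≤
        K ^ (30 * C * ((q + 1) * r)) := by
      refine (Nat.pow_le_pow_left hN _).trans ?_
      rw [← pow_mul]
      refine Nat.pow_le_pow_right (by omega) ?_
      have : 1 ≤ (q + 1) * r := Nat.mul_pos (Nat.succ_pos q) hr0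
      nlinarith
    have h3 : n ^ (r + (q + 1) * P.inner.card) *
        ((q + 1) * 2 * P.m + 2) ^ (C * (5 * ((q + 1) * r) + 1)) ≤
        n ^ (P.inner.card * (q + 1)) * K ^ ((30 * C + 1) * r * (q + 1)) := by
      rw [pow_add, mul_comm (q + 1) P.inner.card, mul_comm (n ^ r), mul_assoc]
      refine Nat.mul_le_mul_left _ ((Nat.mul_le_mul h1 h2).trans_eq ?_)
      rw [← pow_add]
      congr 1
      ring
    exact_mod_cast hwalks.trans h3
  have h0 : ∀ g, 0 ≤ trc P A q g := fun g =>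
    (abs_sum_le (A := A) hl hq g (fun _ _ => 1) (by simp) (fun _ _ _ _ => rfl)).1
  obtain ⟨hroot, hJ⟩ := integral_root_le h0 hint (Nat.succ_le_succ (Nat.zero_le q)) hcpos hle
  have hsq : ∀ g, Real.sqrt (trc P A q g ^ ((↑(q + 1) : ℝ)⁻¹)) ^ 2 =
      trc P A q g ^ ((↑(q + 1) : ℝ)⁻¹) := fun g => Real.sq_sqrt (Real.rpow_nonneg (h0 g) _)
  refine ⟨fun g => Real.sqrt (trc P A q g ^ ((↑(q + 1) : ℝ)⁻¹)), ?_, ?_, fun g f hf h1 =>
    (abs_sum_le hl hq g f hf h1).2⟩
  · rw [memLp_two_iff_integrable_sq (Real.continuous_sqrt.comp_aestronglyMeasurable hroot.1)]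
    simp only [hsq]
    exact hroot
  · simp only [hsq]
    exact hJ

end Vale.Agent.P146.Trace
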