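import Vale.Agent.P150.GaussCalc

/-!
# P146, trace method: mixed moments of independent standard Gaussians
-/

open MeasureTheory ProbabilityTheory
open Vale.Agent.P150 (gauss)

noncomputable section

namespace Vale.Agent.P146.Trace

/-- the `k`-th moment of a standard Gaussian -/
def mom (k : ℕ) : ℝ := ∫ t, t ^ k ∂gaussianReal 0 1

theorem abs_pow_le_exp (k : ℕ) (t : ℝ) : |t ^ k| ≤ (k.factorial : ℝ) * Real.exp (1 * |t|) := by
  rw [abs_pow, one_mul, mul_comm, ← div_le_iff₀ (by positivity)]
  exact Real.pow_div_factorial_le_exp _ (abs_nonneg t) k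

theorem integrable_pow (k : ℕ) : Integrable (fun t : ℝ => t ^ k) (gaussianReal 0 1) := by
  refine (((integrable_exp_mul_gaussianReal (μ := 0) (v := 1) (1 : ℝ)).add
    (integrable_exp_mul_gaussianReal (μ := 0) (v := 1) (-1 : ℝ))).const_mul (k.factorial : ℝ)).mono'
    (by fun_prop) (Filter.Eventually.of_forall fun t => ?_)
  rw [Real.norm_eq_abs]
  refine (abs_pow_le_exp k t).trans (mul_le_mul_of_nonneg_left ?_ (by positivity))
  rcases abs_choice t with h | h <;> rw [h] <;> simp only [Pi.add_apply, one_mul, neg_mul] <;>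
    linarith [Real.exp_pos t, Real.exp_pos (-t)]

theorem mom_zero : mom 0 = 1 := by simp [mom]

theorem mom_one : mom 1 = 0 := by simp [mom]

theorem mom_add_two (k : ℕ) : mom (k + 2) = ((k : ℝ) + 1) * mom k := by
  have h := Vale.Agent.P150.stein_one (f := fun t => t ^ (k + 1))
    (f' := fun t => ((k : ℝ) + 1) * t ^ k) (C := ((k + 1).factorial : ℝ)) (M := 1)
    (fun t => by simpa using hasDerivAt_pow (k + 1) t) (by fun_prop)
    (abs_pow_le_exp (k + 1)) (fun t => ?_)
  · rw [integral_const_mul] at h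
    rw [mom, mom, ← h]
    congr 1
    ext t
    ring
  · rw [abs_mul, abs_of_nonneg (by positivity), Nat.factorial_succ, Nat.cast_mul, Nat.cast_add,
      Nat.cast_one, mul_assoc]
    exact mul_le_mul_of_nonneg_left (abs_pow_le_exp k t) (by positivity)

theorem mom_odd : ∀ j : ℕ, mom (2 * j + 1) = 0
  | 0 => mom_one
  | j + 1 => by rw [show 2 * (j + 1) + 1 = (2 * j + 1) + 2 by ring, mom_add_two, mom_odd j, mul_zero]

theorem mom_nonneg : ∀ k : ℕ, 0 ≤ mom k
  | 0 => by rw [mom_zero]; norm_num
  | 1 => by rw [mom_one]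
  | k + 2 => by rw [mom_add_two]; exact mul_nonneg (by positivity) (mom_nonneg k)

theorem mom_even_le : ∀ j : ℕ, mom (2 * j) ≤ ((2 * j + 1 : ℕ) : ℝ) ^ (j - 1)
  | 0 => by simp [mom_zero]
  | 1 => by rw [mul_one, show (2 : ℕ) = 0 + 2 from rfl, mom_add_two, mom_zero]; norm_num
  | j + 2 => by
    have h := mom_even_le (j + 1)
    rw [show 2 * (j + 2) = 2 * (j + 1) + 2 by ring, mom_add_two, show j + 2 - 1 = j + 1 by omega,
      pow_succ', show j + 1 - 1 = j by omega] at *
    refine mul_le_mul ?_ (h.trans (pow_le_pow_left₀ (by positivity) ?_ _)) (mom_nonneg _)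
      (by positivity)
    · push_cast; linarith
    · push_cast; linarith

variable {α : Type*} [Fintype α]

theorem integrable_prod_pow (k : α → ℕ) :
    Integrable (fun g : α → ℝ => ∏ a, g a ^ k a) (gauss α) :=
  Integrable.fintype_prod (f := fun a (t : ℝ) => t ^ k a) fun a => integrable_pow (k a)

theorem integral_prod_pow (k : α → ℕ) :
    ∫ g, ∏ a, g a ^ k a ∂gauss α = ∏ a, mom (k a) :=
  integral_fintype_prod_eq_prod (fun a (t : ℝ) => t ^ k a)

variable {ι : Type*} [DecidableEq α] (s : Finset ι) (f : ι → α)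

/-- a product of coordinates is a monomial -/
theorem prod_eval_eq (g : α → ℝ) :
    ∏ i ∈ s, g (f i) = ∏ a, g a ^ (s.filter fun i => f i = a).card := by
  rw [← Finset.prod_fiberwise_of_maps_to (g := f) (t := Finset.univ) (fun i _ => Finset.mem_univ _)]
  refine Finset.prod_congr rfl fun a _ => ?_
  rw [Finset.prod_congr rfl (g := fun _ => g a) fun i hi => by rw [(Finset.mem_filter.1 hi).2],
    Finset.prod_const]

theorem integrable_prod_eval : Integrable (fun g : α → ℝ => ∏ i ∈ s, g (f i)) (gauss α) := by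
  simp only [prod_eval_eq s f]
  exact integrable_prod_pow _

theorem integral_prod_eval_eq_zero {a : α} (h : Odd (s.filter fun i => f i = a).card) :
    ∫ g, ∏ i ∈ s, g (f i) ∂gauss α = 0 := by
  simp only [prod_eval_eq s f]
  rw [integral_prod_pow]
  obtain ⟨j, hj⟩ := h
  exact Finset.prod_eq_zero (Finset.mem_univ a) (by rw [hj, mom_odd])

theorem integral_prod_eval_nonneg : 0 ≤ ∫ g, ∏ i ∈ s, g (f i) ∂gauss α := by
  simp only [prod_eval_eq s f]
  rw [integral_prod_pow]
  exact Finset.prod_nonneg fun a _ => mom_nonneg _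

/-- with even multiplicities, a product of `2 H` coordinates has moment at most
`(2 H + 1) ^ (H - #coordinates)` -/
theorem integral_prod_eval_le {H : ℕ} (hs : s.card = 2 * H)
    (he : ∀ a, Even (s.filter fun i => f i = a).card) {M : ℕ} (hM : 2 * H ≤ M) :
    ∫ g, ∏ i ∈ s, g (f i) ∂gauss α ≤ ((M + 1 : ℕ) : ℝ) ^ (H - (s.image f).card) := by
  simp only [prod_eval_eq s f]
  rw [integral_prod_pow]
  set k : α → ℕ := fun a => (s.filter fun i => f i = a).card with hk
  have hk2 : ∀ a, 2 * (k a / 2) = k a := fun a => Nat.two_mul_div_two_of_even (he a)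
  have hb : ∀ a, mom (k a) ≤ ((M + 1 : ℕ) : ℝ) ^ (k a / 2 - 1) := fun a => by
    have h := mom_even_le (k a / 2)
    rw [hk2] at h
    refine h.trans (pow_le_pow_left₀ (by positivity) ?_ _)
    have : k a ≤ s.card := Finset.card_filter_le _ _
    exact_mod_cast (by omega : k a + 1 ≤ M + 1)
  refine (Finset.prod_le_prod (fun a _ => mom_nonneg _) fun a _ => hb a).trans ?_
  rw [Finset.prod_pow_eq_pow_sum]
  refine pow_le_pow_right₀ (by simp) (le_of_eq ?_)
  rw [← Finset.sum_subset (Finset.subset_univ (s.image f)) fun a _ ha => ?_]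
  · have h1 : ∑ a ∈ s.image f, k a = 2 * H := hs ▸ (Finset.card_eq_sum_card_image f s).symm
    have h2 : ∀ a ∈ s.image f, 1 ≤ k a / 2 := fun a ha => by
      obtain ⟨i, hi, rfl⟩ := Finset.mem_image.1 ha
      have : 0 < k (f i) := Finset.card_pos.2 ⟨i, Finset.mem_filter.2 ⟨hi, rfl⟩⟩
      have := hk2 (f i)
      omega
    have h3 : ∑ a ∈ s.image f, (k a / 2) = H := by
      have : 2 * ∑ a ∈ s.image f, (k a / 2) = 2 * H := by
        rw [Finset.mul_sum, ← h1]
        exact Finset.sum_congr rfl fun a _ => hk2 a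
      omega
    rw [Finset.sum_tsub_distrib _ h2, h3, Finset.sum_const, smul_eq_mul, mul_one]
  · have : k a = 0 := by
      refine Finset.card_eq_zero.2 (Finset.filter_eq_empty_iff.2 fun i hi h => ha ?_)
      exact Finset.mem_image.2 ⟨i, hi, h⟩
    simp only [this, Nat.zero_div, Nat.zero_sub]

end Vale.Agent.P146.Trace
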