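import Mathlib

/-!
# P146, trace method: a bilinear form against the trace of a power, and traces of powers as sums
-/

open Matrix

noncomputable section

namespace Vale.Agent.P146.Trace

variable {ι κ : Type*} [Fintype ι] [Fintype κ]


theorem sq_dot_le (v w : ι → ℝ) : (v ⬝ᵥ w) ^ 2 ≤ (v ⬝ᵥ v) * (w ⬝ᵥ w) := by
  simp only [dotProduct, ← sq]
  exact Finset.sum_mul_sq_le_sq_mul_sq _ v w

theorem dot_self_nonneg (v : ι → ℝ) : 0 ≤ v ⬝ᵥ v :=
  Finset.sum_nonneg fun i _ => mul_self_nonneg (v i)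

theorem quad_double {P : Matrix ι ι ℝ} (hP : P.IsSymm) (w : ι → ℝ) :
    w ⬝ᵥ ((P * P) *ᵥ w) = (P *ᵥ w) ⬝ᵥ (P *ᵥ w) := by
  rw [← mulVec_mulVec, dotProduct_mulVec, ← mulVec_transpose, hP.eq]

variable [DecidableEq ι]

theorem isSymm_pow {P : Matrix ι ι ℝ} (hP : P.IsSymm) (q : ℕ) : (P ^ q).IsSymm := by
  rw [IsSymm, transpose_pow, hP.eq]

theorem dot_mulVec_le (P : Matrix ι ι ℝ) (w : ι → ℝ) :
    (P *ᵥ w) ⬝ᵥ (P *ᵥ w) ≤ (∑ i, ∑ j, P i j ^ 2) * (w ⬝ᵥ w) := by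
  simp only [dotProduct, mulVec, ← sq, Finset.sum_mul]
  exact Finset.sum_le_sum fun i _ => by
    rw [← Finset.sum_mul]; exact Finset.sum_mul_sq_le_sq_mul_sq _ (P i) w

theorem trace_sq {P : Matrix ι ι ℝ} (hP : P.IsSymm) :
    (P * P).trace = ∑ i, ∑ j, P i j ^ 2 := by
  simp only [trace, diag, mul_apply]
  refine Finset.sum_congr rfl fun i _ => Finset.sum_congr rfl fun j _ => ?_
  rw [hP.apply i j, sq]

/-- iterated Cauchy–Schwarz -/
theorem quad_pow_le {S : Matrix ι ι ℝ} (hS : S.IsSymm) (w : ι → ℝ) :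
    ∀ k : ℕ, (w ⬝ᵥ (S *ᵥ w)) ^ 2 ^ (k + 1) ≤
      (w ⬝ᵥ w) ^ (2 ^ (k + 1) - 1) * (w ⬝ᵥ ((S ^ 2 ^ (k + 1)) *ᵥ w))
  | 0 => by
    have h := sq_dot_le w (S *ᵥ w)
    rw [← quad_double hS] at h
    simpa [pow_two] using h
  | k + 1 => by
    have h := quad_pow_le hS w k
    set q := 2 ^ (k + 1) with hq
    have hq1 : 1 ≤ q := Nat.one_le_two_pow
    have h0 : 0 ≤ (w ⬝ᵥ (S *ᵥ w)) ^ q := by
      rw [hq, pow_succ, mul_comm, pow_mul]
      exact pow_nonneg (sq_nonneg _) _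
    have h2 := (pow_le_pow_left₀ h0 h 2).trans
      (le_of_eq (mul_pow _ _ 2)) |>.trans (mul_le_mul_of_nonneg_left (sq_dot_le w _)
        (sq_nonneg _))
    have e1 : 2 ^ (k + 1 + 1) = q * 2 := pow_succ 2 (k + 1)
    rw [← quad_double (isSymm_pow hS q), ← pow_add, ← mul_two, ← pow_mul, ← pow_mul, ← e1] at h2
    refine h2.trans (le_of_eq ?_)
    rw [show 2 ^ (k + 1 + 1) - 1 = (q - 1) * 2 + 1 by omega]
    ring

/-- a quadratic form is bounded by the trace of a power -/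
theorem quad_le_trace {S : Matrix ι ι ℝ} (hS : S.IsSymm) (w : ι → ℝ) (k : ℕ) :
    0 ≤ (S ^ 2 ^ (k + 1)).trace ∧
      (w ⬝ᵥ (S *ᵥ w)) ^ 2 ^ (k + 1) ≤ (w ⬝ᵥ w) ^ 2 ^ (k + 1) * (S ^ 2 ^ (k + 1)).trace := by
  have hsq : S ^ 2 ^ (k + 1) = S ^ 2 ^ k * S ^ 2 ^ k := by rw [← pow_add]; congr 1; ring
  have hsym := isSymm_pow hS (2 ^ k)
  refine ⟨?_, ?_⟩
  · rw [hsq, trace_sq hsym]; positivity
  · refine (quad_pow_le hS w k).trans ?_
    have hq1 : 1 ≤ 2 ^ (k + 1) := Nat.one_le_two_pow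
    conv_rhs => rw [← Nat.sub_add_cancel hq1, pow_succ, mul_assoc, Nat.sub_add_cancel hq1]
    refine mul_le_mul_of_nonneg_left ?_ (pow_nonneg (dot_self_nonneg w) _)
    rw [hsq, quad_double hsym, trace_sq hsym, mul_comm]
    exact dot_mulVec_le _ w

/-- the trace of a power of `Zᵀ X Z` -/
theorem trace_conj_pow [DecidableEq κ] (X : Matrix ι ι ℝ) (Z : Matrix ι κ ℝ) (q : ℕ) :
    ((Zᵀ * X * Z) ^ (q + 1)).trace = ((X * (Z * Zᵀ)) ^ (q + 1)).trace := by
  have key : ∀ q : ℕ, (Zᵀ * X * Z) ^ q * Zᵀ = Zᵀ * (X * (Z * Zᵀ)) ^ q := by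
    intro q
    induction q with
    | zero => simp
    | succ q ih =>
      calc (Zᵀ * X * Z) ^ (q + 1) * Zᵀ = (Zᵀ * X * Z) ^ q * Zᵀ * (X * (Z * Zᵀ)) := by
            simp only [pow_succ, Matrix.mul_assoc]
        _ = Zᵀ * (X * (Z * Zᵀ)) ^ (q + 1) := by rw [ih, pow_succ, Matrix.mul_assoc]
  calc ((Zᵀ * X * Z) ^ (q + 1)).trace = ((Zᵀ * X * Z) ^ q * Zᵀ * (X * Z)).trace := by
        simp only [pow_succ, Matrix.mul_assoc]
    _ = (Zᵀ * ((X * (Z * Zᵀ)) ^ q * (X * Z))).trace := by rw [key, Matrix.mul_assoc]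
    _ = ((X * (Z * Zᵀ)) ^ (q + 1)).trace := by
      rw [trace_mul_comm]
      simp only [pow_succ, Matrix.mul_assoc]

/-- an entry of a power is a sum over paths -/
theorem pow_apply (Y : Matrix ι ι ℝ) : ∀ (q : ℕ) (a b : ι),
    (Y ^ q) a b = ∑ c : Fin (q + 1) → ι,
      if c 0 = a ∧ c (Fin.last q) = b then ∏ i : Fin q, Y (c i.castSucc) (c i.succ) else 0
  | 0, a, b => by
    rw [pow_zero, ← (Equiv.funUnique (Fin 1) ι).symm.sum_comp]
    simp [Matrix.one_apply, ite_and]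
  | q + 1, a, b => by
    rw [pow_succ, mul_apply, ← (Fin.snocEquiv fun _ => ι).sum_comp, Fintype.sum_prod_type]
    simp only [pow_apply Y q, Finset.sum_mul]
    rw [Finset.sum_comm (s := (Finset.univ : Finset ι))]
    conv_rhs => rw [Finset.sum_comm]
    refine Finset.sum_congr rfl fun c _ => ?_
    rw [Finset.sum_eq_single (c (Fin.last q)) (fun j _ hj => by simp [Ne.symm hj]) (by simp),
      Finset.sum_eq_single b (fun j _ hj => by simp [hj]) (by simp)]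
    have h0 : (Fin.snoc c b : Fin (q + 2) → ι) 0 = c 0 := by
      rw [← Fin.castSucc_zero, Fin.snoc_castSucc]
    simp [Fin.snocEquiv, h0, Fin.prod_univ_castSucc, ← Fin.castSucc_succ]

/-- the trace of a power is a sum over closed paths -/
theorem trace_pow (Y : Matrix ι ι ℝ) (q : ℕ) :
    (Y ^ (q + 1)).trace = ∑ c : Fin (q + 1) → ι, ∏ i, Y (c i) (c (i + 1)) := by
  simp only [trace, diag]
  rw [pow_succ Y q]
  simp only [mul_apply]
  simp only [pow_apply Y q, Finset.sum_mul]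
  simp only [Finset.sum_comm (s := (Finset.univ : Finset ι)) (t := (Finset.univ : Finset (Fin (q + 1) → ι)))]
  refine Finset.sum_congr rfl fun c _ => ?_
  rw [Finset.sum_eq_single (c 0) (fun j _ hj => by simp [Ne.symm hj]) (by simp),
    Finset.sum_eq_single (c (Fin.last q)) (fun j _ hj => by simp [Ne.symm hj]) (by simp),
    Fin.prod_univ_castSucc]
  simp [Fin.coeSucc_eq_succ]

/-- the trace of a power of a product as a sum over alternating closed paths -/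
theorem trace_mul_pow (U V : Matrix ι ι ℝ) (q : ℕ) :
    ((U * V) ^ (q + 1)).trace =
      ∑ c : Fin (q + 1) → ι, ∑ d : Fin (q + 1) → ι, ∏ i, U (c i) (d i) * V (d i) (c (i + 1)) := by
  rw [trace_pow]
  refine Finset.sum_congr rfl fun c _ => ?_
  simp only [mul_apply]
  exact Fintype.prod_sum _

end Vale.Agent.P146.Trace
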