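import Vale.Agent.P146.Trace.Positions
import Vale.Agent.P146.Trace.Moments
import Vale.Agent.P146.Trace.Operator

/-!
# P146, trace method: the expected trace is a sum over walks
-/

open MeasureTheory Finset Matrix
open Vale.Agent.P150 (gauss)

noncomputable section

namespace Vale.Agent.P146.Trace

variable {n : ℕ}

/-- the edge between two distinct vertices -/
def edgeOf (a b : Fin n) (h : a ≠ b) : Edge n :=
  if hab : a < b then ⟨(a, b), hab⟩ else ⟨(b, a), lt_of_le_of_ne (not_lt.1 hab) h.symm⟩

theorem cpl_comm (g : Edge n → ℝ) (a b : Fin n) : cpl g a b = cpl g b a := by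
  unfold cpl
  rcases lt_trichotomy a b with h | rfl | h
  · rw [dif_pos h, dif_neg h.asymm, dif_pos h]
  · rfl
  · rw [dif_neg h.asymm, dif_pos h, dif_pos h]

theorem cpl_edgeOf (g : Edge n → ℝ) {a b : Fin n} (h : a ≠ b) : cpl g a b = g (edgeOf a b h) := by
  unfold cpl edgeOf
  by_cases hab : a < b
  · rw [dif_pos hab, dif_pos hab]
  · rw [dif_neg hab, dif_pos (lt_of_le_of_ne (not_lt.1 hab) h.symm), dif_neg hab]

theorem pair_edgeOf {a b : Fin n} (h : a ≠ b) :
    s((edgeOf a b h).1.1, (edgeOf a b h).1.2) = s(a, b) := by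
  unfold edgeOf
  split_ifs
  · rfl
  · exact Sym2.eq_swap

theorem pair_injective : Function.Injective fun e : Edge n => s(e.1.1, e.1.2) := by
  rintro ⟨⟨a, b⟩, hab⟩ ⟨⟨c, d⟩, hcd⟩ h
  rcases Sym2.eq_iff.1 h with ⟨rfl, rfl⟩ | ⟨rfl, rfl⟩
  · rfl
  · exact absurd (lt_trans hab hcd) (lt_irrefl _)

/-- the product of the couplings along the steps of a walk -/
def Scheme.stepProd {N : ℕ} (W : Scheme N) (x : Fin N → Fin n) (g : Edge n → ℝ) : ℝ :=
  ∏ z ∈ W.step, cpl g (x (W.prev z)) (x z)

/-- the expected product of the couplings of one walk -/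
theorem Scheme.integral_stepProd {N H : ℕ} (W : Scheme N) (hH : W.step.card = 2 * H)
    (x : Fin N → Fin n) (hcopy : ∀ i ∈ W.copy, x i = x (W.prev i))
    (hne : ∀ i ∈ W.step, x i ≠ x (W.prev i))
    (hnb : ∀ i ∈ W.inner, x (W.prev (W.prev i)) ≠ x i) :
    Integrable (W.stepProd x) (gauss (Edge n)) ∧
      (x ∉ W.walks n → ∫ g, W.stepProd x g ∂gauss (Edge n) = 0) ∧
      ∫ g, W.stepProd x g ∂gauss (Edge n) ≤ (((N + 1) ^ (H - (W.edges x).card) : ℕ) : ℝ) := by
  classical
  let f : {z // z ∈ W.step} → Edge n := fun z => edgeOf (x (W.prev z)) (x z) (hne z z.2).symm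
  have hpair : ∀ z : {z // z ∈ W.step}, s((f z).1.1, (f z).1.2) = W.edge x z :=
    fun z => pair_edgeOf _
  have hprod : W.stepProd x = fun g => ∏ z ∈ W.step.attach, g (f z) := by
    funext g
    rw [Scheme.stepProd, ← prod_attach]
    exact prod_congr rfl fun z _ => cpl_edgeOf g _
  have hcard : W.step.attach.card = 2 * H := by rw [card_attach, hH]
  have hmult : ∀ a, (W.step.attach.filter fun z => f z = a).card = W.mult x s(a.1.1, a.1.2) := by
    intro a
    refine card_bij (fun z _ => z.1) (fun z hz => ?_) (fun z _ w _ h => Subtype.ext h) (fun z hz => ?_)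
    · exact mem_filter.2 ⟨z.2, by rw [← hpair, (mem_filter.1 hz).2]⟩
    · obtain ⟨hz, he⟩ := mem_filter.1 hz
      exact ⟨⟨z, hz⟩, mem_filter.2 ⟨mem_attach _ _, pair_injective ((hpair _).trans he)⟩, rfl⟩
  have hedges : (W.step.attach.image f).card = (W.edges x).card := by
    rw [← card_image_of_injective _ pair_injective, image_image, Scheme.edges]
    congr 1
    conv_rhs => rw [← attach_image_val (s := W.step), image_image]
    exact image_congr fun z _ => hpair z
  rw [hprod]
  refine ⟨integrable_prod_eval _ f, fun hx => ?_, ?_⟩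
  · have : ∃ e ∈ W.edges x, ¬Even (W.mult x e) := by
      by_contra hcon
      simp only [not_exists, not_and, not_not] at hcon
      exact hx (mem_filter.2 ⟨mem_univ _, ⟨hcopy, hne, hnb, hcon⟩⟩)
    obtain ⟨e, he, hodd⟩ := this
    obtain ⟨z, hz, rfl⟩ := mem_image.1 he
    refine integral_prod_eval_eq_zero _ f (a := f ⟨z, hz⟩) ?_
    rw [hmult, hpair]
    exact Nat.not_even_iff_odd.1 hodd
  · by_cases he : ∀ a, Even (W.step.attach.filter fun z => f z = a).card
    · refine (integral_prod_eval_le _ f hcard he (M := N) ?_).trans (le_of_eq ?_)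
      · rw [← hH]; exact (card_le_univ _).trans_eq (Fintype.card_fin N)
      · rw [hedges, Nat.cast_pow]
    · simp only [not_forall, Nat.not_even_iff_odd] at he
      obtain ⟨a, ha⟩ := he
      rw [integral_prod_eval_eq_zero _ f ha]
      positivity

variable (P : Piece (Fin n)) (A : Finset (Fin P.m → Fin n))

/-- couplings along a placement, linked to the placements equal on the positions in `Q` -/
def sideMat (Q : Fin P.m → Prop) [DecidablePred Q] (g : Edge n → ℝ) :
    Matrix {φ // φ ∈ A} {φ // φ ∈ A} ℝ :=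
  Matrix.of fun φ ψ => if ∀ j, Q j → φ.1 j = ψ.1 j then P.innerProd φ.1 g else 0

/-- the trace whose root bounds the operator norm -/
def trc (q : ℕ) (g : Edge n → ℝ) : ℝ :=
  ((sideMat P A (fun j => ¬Tgt P j) g * sideMat P A (fun j => P.link j ≠ true) g) ^ (q + 1)).trace

variable {P A} {q : ℕ}

/-- the conditions joining the segments -/
def Joined (t : (Fin (q + 1) → {φ // φ ∈ A}) × (Fin (q + 1) → {φ // φ ∈ A})) : Prop :=
  ∀ i, (∀ j, ¬Tgt P j → (t.1 i).1 j = (t.2 i).1 j) ∧
    ∀ j, P.link j ≠ true → (t.2 i).1 j = (t.1 (i + 1)).1 j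

/-- the vertices at the positions -/
def walkOf (t : (Fin (q + 1) → {φ // φ ∈ A}) × (Fin (q + 1) → {φ // φ ∈ A}))
    (z : Fin ((q + 1) * 2 * P.m)) : Fin n :=
  let u := (loc P (q + 1)).symm z
  if u.2.1 then (t.2 u.1).1 u.2.2 else (t.1 u.1).1 u.2.2

theorem walkOf_true (t : (Fin (q + 1) → {φ // φ ∈ A}) × (Fin (q + 1) → {φ // φ ∈ A}))
    (i : Fin (q + 1)) (j : Fin P.m) :
    walkOf t (loc P (q + 1) (i, true, j)) = (t.2 i).1 j := by simp [walkOf]

theorem walkOf_false (t : (Fin (q + 1) → {φ // φ ∈ A}) × (Fin (q + 1) → {φ // φ ∈ A}))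
    (i : Fin (q + 1)) (j : Fin P.m) :
    walkOf t (loc P (q + 1) (i, false, j)) = (t.1 i).1 j := by simp [walkOf]

theorem walkOf_injective : Function.Injective (walkOf (P := P) (A := A) (q := q)) := fun t t' h => by
  refine Prod.ext (funext fun i => Subtype.ext (funext fun j => ?_))
    (funext fun i => Subtype.ext (funext fun j => ?_))
  · have := congrFun h (loc P (q + 1) (i, false, j))
    rwa [walkOf_false, walkOf_false] at this
  · have := congrFun h (loc P (q + 1) (i, true, j))
    rwa [walkOf_true, walkOf_true] at this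

variable (hl : LinkLt P) (hA : ∀ φ ∈ A, Function.Injective φ)

include hA in
theorem walkOf_props {t : (Fin (q + 1) → {φ // φ ∈ A}) × (Fin (q + 1) → {φ // φ ∈ A})}
    (ht : Joined t) :
    (∀ z ∈ (segScheme P (q + 1) hl).copy,
      walkOf t z = walkOf t ((segScheme P (q + 1) hl).prev z)) ∧
    (∀ z ∈ (segScheme P (q + 1) hl).step,
      walkOf t z ≠ walkOf t ((segScheme P (q + 1) hl).prev z)) ∧
    ∀ z ∈ (segScheme P (q + 1) hl).inner,
      walkOf t ((segScheme P (q + 1) hl).prev ((segScheme P (q + 1) hl).prev z)) ≠ walkOf t z := by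
  refine ⟨fun z hz => ?_, fun z hz => ?_, fun z hz => ?_⟩
  · obtain ⟨⟨i, b, j⟩, rfl⟩ := (loc P (q + 1)).surjective z
    rw [mem_copy] at hz
    rw [prev_loc]
    cases b
    · obtain ⟨hj, hi⟩ := hz
      have hlt := i.isLt
      have hsucc : (⟨(i : ℕ) - 1, by omega⟩ : Fin (q + 1)) + 1 = i := by
        ext
        rw [Fin.val_add_one_of_lt (by rw [Fin.lt_def, Fin.val_last]; simp only; omega)]
        simp only
        omega
      simp only [prevAt, hj, Bool.false_eq_true, if_false, walkOf_false, walkOf_true]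
      rw [(ht ⟨(i : ℕ) - 1, by omega⟩).2 j hj, hsucc]
    · change ¬Tgt P j at hz
      simp only [prevAt, hz, if_false, walkOf_false, walkOf_true]
      exact ((ht i).1 j hz).symm
  · obtain ⟨⟨i, b, j⟩, rfl⟩ := (loc P (q + 1)).surjective z
    rw [mem_step] at hz
    rw [prev_loc]
    cases b
    · simp only [prevAt, if_pos (show P.link j = true from hz), walkOf_false]
      exact fun h => by
        have := congrArg Fin.val (hA _ (t.1 i).2 h)
        rw [next_val hl hz] at this
        omega
    · simp only [prevAt, if_pos (show Tgt P j from hz), walkOf_true]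
      exact fun h => by
        have := congrArg Fin.val (hA _ (t.2 i).2 h)
        have := back_val_lt hl hz
        omega
  · obtain ⟨⟨i, b, j⟩, rfl⟩ := (loc P (q + 1)).surjective z
    simp only [Scheme.inner, mem_filter, prev_loc, mem_step] at hz
    rw [prev_loc, prev_loc]
    cases b
    · obtain ⟨h1, h2⟩ := hz
      rw [show prevAt P (q + 1) (i, false, j) = (i, false, P.next j) from if_pos h1] at h2 ⊢
      simp only [prevAt, if_pos (show P.link (P.next j) = true from h2), walkOf_false]
      exact fun h => by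
        have := congrArg Fin.val (hA _ (t.1 i).2 h)
        rw [next_val hl h2, next_val hl h1] at this
        omega
    · obtain ⟨h1, h2⟩ := hz
      rw [show prevAt P (q + 1) (i, true, j) = (i, true, back P j) from if_pos h1] at h2 ⊢
      simp only [prevAt, if_pos (show Tgt P (back P j) from h2), walkOf_true]
      exact fun h => by
        have := congrArg Fin.val (hA _ (t.2 i).2 h)
        have := back_val_lt hl h1
        have := back_val_lt hl h2
        omega

theorem stepProd_walkOf (t : (Fin (q + 1) → {φ // φ ∈ A}) × (Fin (q + 1) → {φ // φ ∈ A}))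
    (g : Edge n → ℝ) :
    (segScheme P (q + 1) hl).stepProd (walkOf t) g =
      ∏ i, P.innerProd (t.1 i).1 g * P.innerProd (t.2 i).1 g := by
  rw [Scheme.stepProd, prod_step]
  refine prod_congr rfl fun i _ => ?_
  simp only [Piece.innerProd]
  congr 1 <;> refine prod_congr rfl fun j hj => ?_ <;> rw [mem_inner] at hj <;> rw [prev_loc]
  · rw [show prevAt P (q + 1) (i, false, j) = (i, false, P.next j) from if_pos hj, walkOf_false,
      walkOf_false, cpl_comm]
  · rw [show prevAt P (q + 1) (i, true, P.next j) = (i, true, back P (P.next j)) from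
      if_pos (tgt_next hj), walkOf_true, walkOf_true, back_next hl hj]

open Classical in
/-- the trace as a sum over joined tuples of placements -/
theorem trc_eq (g : Edge n → ℝ) :
    trc P A q g = ∑ t ∈ univ.filter (Joined (P := P) (A := A) (q := q)),
      (segScheme P (q + 1) hl).stepProd (walkOf t) g := by
  rw [trc, trace_mul_pow, sum_filter, Fintype.sum_prod_type]
  refine sum_congr rfl fun c _ => sum_congr rfl fun d _ => ?_
  rw [stepProd_walkOf hl]
  by_cases h : Joined (P := P) (c, d)
  · rw [if_pos h]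
    refine prod_congr rfl fun i _ => ?_
    simp only [sideMat, of_apply]
    rw [if_pos (h i).1, if_pos (h i).2]
  · rw [if_neg h]
    obtain ⟨i, hi⟩ := not_forall.1 h
    refine prod_eq_zero (mem_univ i) ?_
    simp only [sideMat, of_apply]
    rcases not_and_or.1 hi with h1 | h1
    · rw [if_neg h1, zero_mul]
    · rw [if_neg h1, mul_zero]

include hl hA in
/-- the expected trace is at most the weighted number of walks -/
theorem integral_trc_le :
    Integrable (trc P A q) (gauss (Edge n)) ∧
      ∫ g, trc P A q g ∂gauss (Edge n) ≤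
        ((∑ x ∈ (segScheme P (q + 1) hl).walks n, ((q + 1) * 2 * P.m + 1) ^
          ((q + 1) * P.inner.card - ((segScheme P (q + 1) hl).edges x).card) : ℕ) : ℝ) := by
  classical
  set W := segScheme P (q + 1) hl
  set G := univ.filter (Joined (P := P) (A := A) (q := q))
  have key : ∀ t ∈ G, _ := fun t ht =>
    W.integral_stepProd (card_step hl) (walkOf t) (walkOf_props hl hA (mem_filter.1 ht).2).1
      (walkOf_props hl hA (mem_filter.1 ht).2).2.1 (walkOf_props hl hA (mem_filter.1 ht).2).2.2
  rw [show trc P A q = fun g => ∑ t ∈ G, W.stepProd (walkOf t) g from funext fun g => trc_eq hl g]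
  refine ⟨integrable_finsetSum _ fun t ht => (key t ht).1, ?_⟩
  rw [integral_finsetSum _ fun t ht => (key t ht).1]
  rw [← sum_filter_add_sum_filter_not G fun t => walkOf t ∈ W.walks n,
    sum_eq_zero (s := G.filter fun t => walkOf t ∉ W.walks n)
      (fun t ht => (key t (mem_filter.1 ht).1).2.1 (mem_filter.1 ht).2), add_zero]
  refine (sum_le_sum fun t ht => (key t (mem_filter.1 ht).1).2.2).trans ?_
  rw [← Nat.cast_sum, Nat.cast_le]
  rw [← sum_image (g := walkOf (P := P) (A := A) (q := q))
    (f := fun x => ((q + 1) * 2 * P.m + 1) ^ ((q + 1) * P.inner.card - (W.edges x).card))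
    fun a _ b _ h => walkOf_injective h]
  exact sum_le_sum_of_subset fun x hx => by
    obtain ⟨t, ht, rfl⟩ := mem_image.1 hx
    exact (mem_filter.1 ht).2

end Vale.Agent.P146.Trace
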