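import Mathlib

/-!
# P146, trace method: schemes of closed walks

Positions `0, ..., N-1`; each is a root, a copy of an earlier position, or a step from an earlier
position. An inner step starts at the end of a step and does not backtrack.
-/

namespace Vale.Agent.P146.Trace

/-- the shape of a family of walks on the positions `Fin N` -/
structure Scheme (N : ℕ) where
  /-- positions reached by a step from `prev` -/
  step : Finset (Fin N)
  /-- positions repeating the vertex of `prev` -/
  copy : Finset (Fin N)
  disj : Disjoint step copy
  /-- the earlier position of a step or a copy -/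
  prev : Fin N → Fin N
  prev_lt : ∀ i, i ∈ step ∨ i ∈ copy → prev i < i

variable {N n : ℕ} (W : Scheme N)

/-- positions without a predecessor -/
def Scheme.roots : Finset (Fin N) := Finset.univ \ (W.step ∪ W.copy)

/-- steps starting at the end of a step -/
def Scheme.inner : Finset (Fin N) := W.step.filter fun i => W.prev i ∈ W.step

/-- steps starting at a root or a copy -/
def Scheme.turn : Finset (Fin N) := W.step \ W.inner

/-- steps from whose end no inner step starts -/
def Scheme.childless : Finset (Fin N) := W.step.filter fun i => ∀ k ∈ W.inner, W.prev k ≠ i

/-- the unordered pair used at a step -/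
def Scheme.edge (x : Fin N → Fin n) (i : Fin N) : Sym2 (Fin n) := s(x (W.prev i), x i)

/-- the pairs used by a walk -/
def Scheme.edges (x : Fin N → Fin n) : Finset (Sym2 (Fin n)) := W.step.image (W.edge x)

/-- how often a pair is used -/
def Scheme.mult (x : Fin N → Fin n) (e : Sym2 (Fin n)) : ℕ :=
  (W.step.filter fun i => W.edge x i = e).card

/-- walks following the scheme, without loops and backtracking, using every pair an even number of
times -/
structure Scheme.Walk (x : Fin N → Fin n) : Prop where
  copy_eq : ∀ i ∈ W.copy, x i = x (W.prev i)
  step_ne : ∀ i ∈ W.step, x i ≠ x (W.prev i)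
  nb : ∀ i ∈ W.inner, x (W.prev (W.prev i)) ≠ x i
  even : ∀ e ∈ W.edges x, Even (W.mult x e)

open Classical in
/-- all walks of a scheme -/
noncomputable def Scheme.walks (n : ℕ) : Finset (Fin N → Fin n) := Finset.univ.filter W.Walk

end Vale.Agent.P146.Trace
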