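import Vale.Agent.P146.Defs
import Vale.Agent.P146.Trace.Scheme

/-!
# P146, trace method: the scheme of `2 p` copies of a linked row of positions

Segment `(i, false)` runs through the positions downwards, segment `(i, true)` upwards.
-/

noncomputable section

namespace Vale.Agent.P146.Trace

open Finset

variable {V : Type*} (P : Piece V)

/-- `j` is the upper end of a link -/
def Tgt (j : Fin P.m) : Prop := ∃ i, P.link i = true ∧ P.next i = j

instance : DecidablePred (Tgt P) := fun j => by unfold Tgt; infer_instance

/-- links stay inside the range -/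
def LinkLt : Prop := ∀ j, P.link j = true → (j : ℕ) + 1 < P.m

/-- the position below -/
def back (j : Fin P.m) : Fin P.m := ⟨(j : ℕ) - 1, by omega⟩

variable {P}

theorem next_val (hl : LinkLt P) {j : Fin P.m} (hj : P.link j = true) :
    (P.next j : ℕ) = (j : ℕ) + 1 := by
  rw [Piece.next, dif_pos (hl j hj)]

theorem tgt_next {j : Fin P.m} (hj : P.link j = true) : Tgt P (P.next j) := ⟨j, hj, rfl⟩

theorem back_next (hl : LinkLt P) {j : Fin P.m} (hj : P.link j = true) : back P (P.next j) = j := by
  ext; simp [back, next_val hl hj]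

theorem back_val_lt (hl : LinkLt P) {j : Fin P.m} (hj : Tgt P j) : (back P j : ℕ) + 1 = j := by
  obtain ⟨i, hi, rfl⟩ := hj
  rw [back_next hl hi, next_val hl hi]

theorem mem_inner {j : Fin P.m} : j ∈ P.inner ↔ P.link j = true := by simp [Piece.inner]

theorem filter_tgt : univ.filter (Tgt P) = P.inner.image P.next := by
  ext j
  simp [Tgt, mem_inner]

theorem next_injOn (hl : LinkLt P) : Set.InjOn P.next (P.inner : Set (Fin P.m)) := fun a ha b hb h => by
  rw [mem_coe, mem_inner] at ha hb
  exact Fin.ext (by have := congrArg Fin.val h; rw [next_val hl ha, next_val hl hb] at this; omega)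

theorem card_tgt (hl : LinkLt P) : (univ.filter (Tgt P)).card = P.inner.card := by
  rw [filter_tgt, card_image_of_injOn (next_injOn hl)]

theorem card_not_tgt (hl : LinkLt P) :
    (univ.filter fun j => ¬Tgt P j).card = P.m - P.inner.card := by
  have h := card_filter_add_card_filter_not (s := (univ : Finset (Fin P.m))) (Tgt P)
  rw [card_univ, Fintype.card_fin, card_tgt hl] at h
  omega

theorem card_not_link : (univ.filter fun j => P.link j ≠ true).card = P.m - P.inner.card := by
  have h := card_filter_add_card_filter_not (s := (univ : Finset (Fin P.m)))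
    fun j => P.link j = true
  rw [card_univ, Fintype.card_fin] at h
  change P.inner.card + _ = _ at h
  simp only [ne_eq]
  omega

variable (P) (p : ℕ)

/-- the index of the position `j` in the segment `(i, b)` -/
def loc : Fin p × Bool × Fin P.m ≃ Fin (p * 2 * P.m) :=
  ((Equiv.refl _).prodCongr
      (Function.Involutive.toPerm (fun t : Bool × Fin P.m => (t.1, if t.1 then t.2 else t.2.rev))
        fun t => by rcases t with ⟨b, j⟩; cases b <;> simp)).trans <|
    ((Equiv.prodAssoc _ _ _).symm.trans <|
      ((((Equiv.refl (Fin p)).prodCongr finTwoEquiv.symm).trans finProdFinEquiv).prodCongr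
        (Equiv.refl _)).trans finProdFinEquiv)

theorem loc_true (i : Fin p) (j : Fin P.m) :
    (loc P p (i, true, j) : ℕ) = j + P.m * (1 + 2 * i) := by
  simp [loc, finProdFinEquiv, finTwoEquiv, Function.Involutive.toPerm]

theorem loc_false (i : Fin p) (j : Fin P.m) :
    (loc P p (i, false, j) : ℕ) = (P.m - ((j : ℕ) + 1)) + P.m * (2 * i) := by
  simp [loc, finProdFinEquiv, finTwoEquiv, Function.Involutive.toPerm, Fin.val_rev]

/-- the position is reached by a step -/
def StepAt : Fin p × Bool × Fin P.m → Prop
  | (_, true, j) => Tgt P j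
  | (_, false, j) => P.link j = true

/-- the position repeats an earlier one -/
def CopyAt : Fin p × Bool × Fin P.m → Prop
  | (_, true, j) => ¬Tgt P j
  | (i, false, j) => P.link j ≠ true ∧ (i : ℕ) ≠ 0

/-- the previous position -/
def prevAt : Fin p × Bool × Fin P.m → Fin p × Bool × Fin P.m
  | (i, true, j) => if Tgt P j then (i, true, back P j) else (i, false, j)
  | (i, false, j) => if P.link j then (i, false, P.next j) else (⟨(i : ℕ) - 1, by omega⟩, true, j)

instance : DecidablePred (StepAt P p) := fun t => by
  rcases t with ⟨i, b, j⟩; cases b <;> unfold StepAt <;> infer_instance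

instance : DecidablePred (CopyAt P p) := fun t => by
  rcases t with ⟨i, b, j⟩; cases b <;> unfold CopyAt <;> infer_instance

/-- the scheme of `2 p` segments -/
def segScheme (hl : LinkLt P) : Scheme (p * 2 * P.m) where
  step := univ.filter fun z => StepAt P p ((loc P p).symm z)
  copy := univ.filter fun z => CopyAt P p ((loc P p).symm z)
  disj := by
    rw [disjoint_filter]
    intro z _ h1 h2
    rcases h : (loc P p).symm z with ⟨i, b, j⟩
    rw [h] at h1 h2
    cases b
    · exact h2.1 h1
    · exact h2 h1
  prev z := loc P p (prevAt P p ((loc P p).symm z))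
  prev_lt z hz := by
    obtain ⟨⟨i, b, j⟩, rfl⟩ := (loc P p).surjective z
    simp only [mem_filter, mem_univ, true_and, Equiv.symm_apply_apply] at hz ⊢
    rw [Fin.lt_def]
    cases b
    · by_cases h : P.link j = true
      · have := hl j h
        simp only [prevAt, if_pos h, loc_false, next_val hl h]
        omega
      · have h0 : (i : ℕ) ≠ 0 := hz.elim (fun h' => absurd h' h) fun h' => h'.2
        obtain ⟨a, ha⟩ : ∃ a, (i : ℕ) = a + 1 := ⟨(i : ℕ) - 1, by omega⟩
        simp only [prevAt, h, Bool.false_eq_true, if_false, loc_true, loc_false]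
        rw [ha, show P.m * (2 * (a + 1)) = P.m * (1 + 2 * a) + P.m by ring, Nat.add_sub_cancel]
        omega
    · by_cases h : Tgt P j
      · have := back_val_lt hl h
        simp only [prevAt, if_pos h, loc_true]
        omega
      · simp only [prevAt, if_neg h, loc_true, loc_false, mul_add, mul_one]
        omega

variable {P p}

theorem mem_step (hl : LinkLt P) (t : Fin p × Bool × Fin P.m) :
    loc P p t ∈ (segScheme P p hl).step ↔ StepAt P p t := by simp [segScheme]

theorem mem_copy (hl : LinkLt P) (t : Fin p × Bool × Fin P.m) :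
    loc P p t ∈ (segScheme P p hl).copy ↔ CopyAt P p t := by simp [segScheme]

theorem prev_loc (hl : LinkLt P) (t : Fin p × Bool × Fin P.m) :
    (segScheme P p hl).prev (loc P p t) = loc P p (prevAt P p t) := by simp [segScheme]

theorem step_eq_map (hl : LinkLt P) :
    (segScheme P p hl).step = (univ.filter (StepAt P p)).map (loc P p).toEmbedding := by
  ext z
  obtain ⟨t, rfl⟩ := (loc P p).surjective z
  simp [mem_step]

/-- products over the steps -/
theorem prod_step {α : Type*} [CommMonoid α] (hl : LinkLt P) (F : Fin (p * 2 * P.m) → α) :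
    ∏ z ∈ (segScheme P p hl).step, F z =
      ∏ i : Fin p, (∏ j ∈ P.inner, F (loc P p (i, false, j))) *
        ∏ j ∈ P.inner, F (loc P p (i, true, P.next j)) := by
  rw [step_eq_map, prod_map, prod_filter, Fintype.prod_prod_type]
  refine prod_congr rfl fun i _ => ?_
  rw [Fintype.prod_prod_type, Fintype.prod_bool, mul_comm,
    ← prod_image (g := P.next) (f := fun j => F (loc P p (i, true, j))) (next_injOn hl),
    ← filter_tgt, Piece.inner, prod_filter, prod_filter]
  rfl

theorem card_step (hl : LinkLt P) : (segScheme P p hl).step.card = 2 * (p * P.inner.card) := by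
  have h := prod_step (α := Multiplicative ℕ) (p := p) hl fun _ => Multiplicative.ofAdd 1
  simp only [prod_const, card_univ, Fintype.card_fin] at h
  have h2 := congrArg Multiplicative.toAdd h
  simp at h2
  rw [h2]
  ring

theorem card_roots (hl : LinkLt P) (hp : 0 < p) :
    (segScheme P p hl).roots.card = P.m - P.inner.card := by
  have e : (segScheme P p hl).roots = (univ.filter fun j => P.link j ≠ true).image
      fun j => loc P p (⟨0, hp⟩, false, j) := by
    ext z
    obtain ⟨⟨i, b, j⟩, rfl⟩ := (loc P p).surjective z
    simp only [Scheme.roots, mem_sdiff, mem_union, mem_univ, true_and, mem_step, mem_copy,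
      mem_image, mem_filter, EmbeddingLike.apply_eq_iff_eq, Prod.mk.injEq]
    cases b
    · constructor
      · intro h
        simp only [StepAt, CopyAt, not_or, not_and, not_not] at h
        exact ⟨j, h.1, Fin.ext (h.2 h.1).symm, rfl, rfl⟩
      · rintro ⟨a, ha, rfl, -, rfl⟩
        simp [StepAt, CopyAt, ha]
    · simp [StepAt, CopyAt, em]
  rw [e, card_image_of_injective _ fun a a' h => by simpa using h, card_not_link]

theorem prev_injOn (hl : LinkLt P) :
    Set.InjOn (segScheme P p hl).prev ((segScheme P p hl).step : Set (Fin (p * 2 * P.m))) := by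
  intro z hz z' hz' h
  obtain ⟨⟨i, b, j⟩, rfl⟩ := (loc P p).surjective z
  obtain ⟨⟨i', b', j'⟩, rfl⟩ := (loc P p).surjective z'
  rw [mem_coe, mem_step] at hz hz'
  rw [prev_loc, prev_loc, EmbeddingLike.apply_eq_iff_eq] at h
  cases b <;> cases b' <;> simp only [StepAt] at hz hz' <;>
    simp only [prevAt, hz, hz', if_true, Prod.mk.injEq, Bool.false_eq_true, reduceCtorEq, false_and,
      and_false] at h
  · rw [h.1, next_injOn hl (mem_coe.2 (mem_inner.2 hz)) (mem_coe.2 (mem_inner.2 hz')) h.2.2]
  · obtain ⟨a, ha, rfl⟩ := hz
    obtain ⟨a', ha', rfl⟩ := hz'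
    rw [back_next hl ha, back_next hl ha'] at h
    rw [h.1, h.2.2]

/-- at most `4 p` turns and ends per block, besides the roots -/
theorem card_turn_le (hl : LinkLt P) :
    (segScheme P p hl).turn.card ≤ 2 * (p * (P.m - P.inner.card)) ∧
      (segScheme P p hl).childless.card ≤ 2 * (p * (P.m - P.inner.card)) := by
  set W := segScheme P p hl
  have hout : (univ \ W.step).card = 2 * (p * (P.m - P.inner.card)) := by
    rw [card_sdiff_of_subset (subset_univ _), card_univ, Fintype.card_fin, card_step hl,
      Nat.mul_sub, Nat.mul_sub]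
    ring_nf
  have hle : W.turn.card ≤ 2 * (p * (P.m - P.inner.card)) := by
    rw [← hout]
    refine card_le_card_of_injOn W.prev (fun z hz => ?_)
      ((prev_injOn hl).mono fun z hz => ?_)
    · simp only [mem_coe, Scheme.turn, Scheme.inner, mem_sdiff, mem_filter, not_and] at hz
      exact mem_coe.2 (mem_sdiff.2 ⟨mem_univ _, hz.2 hz.1⟩)
    · simp only [mem_coe, Scheme.turn, mem_sdiff] at hz
      exact mem_coe.2 hz.1
  refine ⟨hle, le_trans (le_of_eq ?_) hle⟩
  have hsub : W.inner ⊆ W.step := filter_subset _ _
  have himg : W.inner.image W.prev ⊆ W.step :=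
    image_subset_iff.2 fun z hz => (mem_filter.1 hz).2
  have e : W.childless = W.step \ W.inner.image W.prev := by
    ext z
    simp only [Scheme.childless, mem_filter, mem_sdiff, mem_image, not_exists, not_and]
  rw [e, Scheme.turn, card_sdiff_of_subset himg, card_sdiff_of_subset hsub,
    card_image_of_injOn ((prev_injOn hl).mono (coe_subset.2 hsub))]

end Vale.Agent.P146.Trace
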